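import Vale.Agent.P092.H375.P3.GeoD

/-!
P092 (helper375), [CL-PL]: the record `PL` of a commuting leg of points of the isometry group of a
form (any kind of form, Witt index at least two, every field), from: all points commute, exact
perpendicularity of pairs, covariance, `PicX.erg` and Moore sets. Hence the cross ratios of the
isotropic lines are one homomorphism of fields. Source form and target form may be different.
-/

set_option linter.all false

namespace Vale.Agent.P092.H375.P3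

open Vale.Agent.P092.H303 (FormGroup)
open Vale.Agent.P092.H714.Cl
open Vale.Agent.P092.H714.Sg (Fm)
open Vale.Agent.P092.H370.Po
open Vale.Agent.P092.H370.Fo (Fo Wf ptv ptv_S exists_ptv col_ptv EU_le)
open Vale.Agent.P092.H416.CL
open Vale.Agent.P092.H820 Vale.Agent.P092.H466
open Vale.Agent.P092.H171 (co exists_joint)
open Vale.Agent.P092.H375.X2 (Jf)
open Vale.Agent.P092.RC (Cm Moore)
open TopologicalSpace Set Matrix Module Filter Topology MeasureTheory
open scoped LinearAlgebra.Projectivization Matrix InnerProductSpace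

/-! ### Points of the projective space -/

section pts

variable {n : Type} [Fintype n] [DecidableEq n] {k : Type} [NontriviallyNormedField k]
  {σ : k →+* k} {ε : k} {J : Matrix n n k} {N : ℕ}

theorem pv_iso (e : n ≃ Fin (N + 1)) {x : Fin (N + 1) → k} (hx : x ≠ 0)
    (h : hf σ (Je e J) x x = 0) : ∃ a : SGr σ J 1, Pv (pt e a) x := by
  obtain ⟨a, ha⟩ := (range_pt (σ := σ) (J := J) e hx).2 h
  exact ⟨a, hx, ha⟩

/-- the points of an isotropic line -/
theorem pt_span (e : n ≃ Fin (N + 1)) {x y : n → k} (a : SGr σ J 1)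
    (ha : (pt e a).submodule ≤ Submodule.span k {cor e x, cor e y}) :
    a.S ≤ Submodule.span k {x, y} := by
  have e1 : Submodule.span k {cor e x, cor e y} = (Submodule.span k {x, y}).map (corL e) := by
    rw [Submodule.map_span, image_pair]
    rfl
  rw [e1, pt_sub] at ha
  intro v hv
  obtain ⟨w, hw, hwv⟩ := ha ⟨v, hv, rfl⟩
  rw [← corL_inj e hwv]
  exact hw

theorem span_pts {x y : n → k} {a b : SGr σ J 1} (hne : a ≠ b)
    (ha : a.S ≤ Submodule.span k {x, y}) (hb : b.S ≤ Submodule.span k {x, y}) :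
    Submodule.span k {x, y} = a.S ⊔ b.S := by
  have h1 := H370.Fo.sup_dim hne
  refine (Submodule.eq_of_le_of_finrank_le (sup_le ha hb) ?_).symm
  rw [h1]
  have h3 := finrank_range_le_card (R := k) ![x, y]
  have e : range ![x, y] = {x, y} := by
    ext z
    simp [Fin.exists_fin_two, eq_comm, or_comm]
  rw [e, Fintype.card_fin] at h3
  exact h3

end pts

/-! ### The record -/

section main

variable {n n' : Type} [Fintype n] [DecidableEq n] [Fintype n'] [DecidableEq n']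
  {kS k : Type} [NontriviallyNormedField kS] [NontriviallyNormedField k] [ProperSpace k]
  {σS : kS →+* kS} {εS : kS} {JS : Matrix n n kS} {σ : k →+* k} {ε : k} {J : Matrix n' n' k}
  [Fact (Continuous σ)] [MeasurableSpace (SGr σ J 1)] [BorelSpace (SGr σ J 1)] {K : Type}
  [NormedAddCommGroup K] [InnerProductSpace ℂ K] [CompleteSpace K] {N : ℕ} {E₀ Γ : Type}
  [Group E₀] [TopologicalSpace E₀] [Group Γ]
  {E : SGr σS JS 1 → (C(SGr σ J 1, ℂ) →⋆ₐ[ℂ] (K →L[ℂ] K))}
  {ι : FormGroup σS JS →* E₀} {π : E₀ →* (K →L[ℂ] K)} {lam : Γ →* (K →L[ℂ] K)}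
  {W : Set (K →L[ℂ] K)} {q : Γ → FormGroup σ J}

/-- **[CL-PL]** -/
theorem pl_of {r : ℕ} (hF : Fo σS εS JS) (hr : WI σS JS r) (hF' : Fm σ ε J)
    (hr' : ∀ Y, Sing σ J Y → finrank k Y ≤ r) (eS : n ≃ Fin (N + 1)) (e : n' ≃ Fin (N + 1))
    {x₀ y₀ : n → kS} (h₀ : IsoP σS JS x₀ y₀)
    (erg : ∀ R : Set E₀, Moore R → ∀ T, Cm W T → (∀ γ, T * lam γ = lam γ * T) →
      (∀ g ∈ R, T * π g = π g * T) → ∃ z : ℂ, T = z • (1 : K →L[ℂ] K))
    (moore : ∀ R : Set (FormGroup σS JS), (∀ C : ℝ, ∃ g ∈ R, ∃ i j, C ≤ ‖g.1.1 i j‖) →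
      Moore (ι '' R))
    (com : ∀ a b f g, Commute (E a f) (E b g)) (cm : ∀ a f, Cm W (E a f))
    (cov : ∀ γ a (f f' : C(SGr σ J 1, ℂ)), (∀ y, f' y = f ((q γ)⁻¹ • y)) →
      lam γ * E a f * lam γ⁻¹ = E a f')
    (pcov : ∀ g a f, π (ι g) * E a f * π (ι g)⁻¹ = E (g • a) f) (hE : Exa E) :
    PL (pt eS : SGr σS JS 1 → _) (IsoP σS (Je eS JS)) (cor eS x₀) (cor eS y₀) (rhoP eS σS JS)
      (π.comp ι) lam W (fun γ => rhoG e σ J (q γ)) (EP e E) where
  ptinj := pt_inj eS
  com a b f g := com a b _ _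
  cm a f := cm a _
  cov γ a f := by
    refine cov γ a _ _ fun y => ?_
    change f ((rhoG e σ J (q γ))⁻¹ • pt e y) = f (pt e ((q γ)⁻¹ • y))
    rw [rhoG_inv, rhoG_smul, pt_smul]
  stab g a := ⟨g • a, by rw [pt_smul, rhoP_smul]⟩
  pcov g a b hb f := by
    have e1 : b = g • a := pt_inj eS (by rw [hb, pt_smul, rhoP_smul])
    rw [e1]
    have h2 := pcov g a (f.comp (ptC e σ J))
    rw [← map_inv] at h2
    exact h2
  li x y h := h.li
  onl x y h v hv hvs := by
    have h' : IsoP σS JS (roc eS x) (roc eS y) := by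
      rw [← isoP_cor eS, cor_roc, cor_roc]
      exact h
    refine pv_iso eS hv ?_
    obtain ⟨a, b, rfl⟩ := Submodule.mem_span_pair.1 hvs
    have hyx : hf σS (Je eS JS) y x = 0 := by
      rw [← cor_roc eS x, ← cor_roc eS y, hf_cor]
      exact hF.fm.symm0 h'.xy
    simp only [hf_add_left, hf_add_right, hf_smul_left, hf_smul_right, h.xx, h.yy, h.xy, hyx,
      mul_zero, add_zero]
  dst x y h a b hab ha hb Φ hΦ ξ := by
    obtain ⟨Ψ, hΨ⟩ := exists_joint (fun t : Fin 2 => E (![a, b] t)) fun s t f g => com _ _ f g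
    refine (ae_EP e hΦ hΨ ξ).2 ?_
    filter_upwards [hE.dst hF.fm com hab hΨ ξ] with z hz he
    exact hz (pt_inj e he)
  col x y h a b c hab hac hbc ha hb hc Φ hΦ ξ := by
    obtain ⟨Ψ, hΨ⟩ := exists_joint (fun t : Fin 3 => E (![a, b, c] t)) fun s t f g => com _ _ f g
    refine (ae_EP e hΦ hΨ ξ).2 ?_
    have h' : IsoP σS JS (roc eS x) (roc eS y) := by
      rw [← isoP_cor eS, cor_roc, cor_roc]
      exact h
    rw [← cor_roc eS x, ← cor_roc eS y] at ha hb hc
    have ha' := pt_span eS a ha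
    have hb' := pt_span eS b hb
    have hc' := pt_span eS c hc
    have hcol : Col a b := by
      intro u hu v hv
      obtain ⟨s, t, rfl⟩ := Submodule.mem_span_pair.1 (ha' hu)
      obtain ⟨s', t', rfl⟩ := Submodule.mem_span_pair.1 (hb' hv)
      simp only [hf_add_left, hf_add_right, hf_smul_left, hf_smul_right, h'.xx, h'.yy, h'.xy,
        hF.fm.symm0 h'.xy, mul_zero, add_zero]
    have hl : c.S ≤ a.S ⊔ b.S := by
      rw [← span_pts hab ha' hb']
      exact hc'
    filter_upwards [hE.col hF hr hF' hr' e com hab hcol hl hΨ ξ] with z hz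
    exact (pt_le e).2 hz
  erg x y h T h1 h2 h3 := by
    have h' : IsoP σS JS (roc eS x) (roc eS y) := by
      rw [← isoP_cor eS, cor_roc, cor_roc]
      exact h
    let R : Set (FormGroup σS JS) :=
      {g | ∀ v ∈ Submodule.span kS {roc eS x, roc eS y}, v ᵥ* g.1.1 = v}
    refine erg (ι '' R) (moore R fun C => ?_) T h1 h2 ?_
    · obtain ⟨g, hg, i, j, hij⟩ := unb2 hF.fm h' C
      exact ⟨g, hg, i, j, hij⟩
    · rintro _ ⟨g, hg, rfl⟩
      refine h3 g fun a ha => ?_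
      -- `g` fixes the points of the line
      obtain ⟨v, hv⟩ := exists_pv a
      have hvm : v ∈ Submodule.span kS {x, y} := ha (by
        rw [hv.sub]
        exact Submodule.mem_span_singleton_self v)
      have hrv : roc eS v ∈ Submodule.span kS {roc eS x, roc eS y} := by
        obtain ⟨s, t, rfl⟩ := Submodule.mem_span_pair.1 hvm
        exact Submodule.mem_span_pair.2 ⟨s, t, rfl⟩
      obtain ⟨hv0, rfl⟩ := hv
      have h4 : (rho eS σS JS g).1 *ᵥ v = v := by
        have h5 := rho_cor eS g (roc eS v)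
        rw [cor_roc] at h5
        rw [h5]
        have h6 : roc eS v ᵥ* (g.1⁻¹).1 = roc eS v := by
          conv_lhs => rw [← hg _ hrv]
          exact vecMul_cancel_inv _ _
        rw [h6, cor_roc]
      rw [rhoP_smul]
      change pj kS (Fin (N + 1)) ⟨(rho eS σS JS g).1 *ᵥ v, _⟩ = _
      congr 1
      exact Subtype.ext h4
  tr x y h := by
    have h' : IsoP σS JS (roc eS x) (roc eS y) := by
      rw [← isoP_cor eS, cor_roc, cor_roc]
      exact h
    obtain ⟨g, hg, a, b, ha, hb, h1, h2⟩ := tr2 hF h' h₀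
    have hgF := EU_le hF.fm hg
    refine ⟨⟨g, hgF⟩⁻¹, rhoG eS σS JS (⟨g, hgF⟩⁻¹), a, b, rfl, ha, hb, ?_, ?_⟩
    · conv_lhs => rw [← cor_roc eS x]
      rw [rhoG_cor, ← cor_smul]
      exact congrArg (cor eS) h1
    · conv_lhs => rw [← cor_roc eS y]
      rw [rhoG_cor, ← cor_smul]
      exact congrArg (cor eS) h2
  base := (isoP_cor eS).2 h₀
  sl A := by
    obtain ⟨g, hg, h1, h2⟩ := sl2 hF.fm h₀ A
    have hgF := EU_le hF.fm hg
    refine ⟨⟨g, hgF⟩⁻¹, rhoG eS σS JS (⟨g, hgF⟩⁻¹), rfl, ?_, ?_⟩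
    · rw [rhoG_cor, ← cor_smul, ← cor_smul, ← cor_add]
      exact congrArg (cor eS) h1
    · rw [rhoG_cor, ← cor_smul, ← cor_smul, ← cor_add]
      exact congrArg (cor eS) h2

/-- **the homomorphism of fields** -/
theorem tau_of [Nontrivial K] {r : ℕ} (hF : Fo σS εS JS) (hr : WI σS JS r) (hr2 : 2 ≤ r)
    (hF' : Fm σ ε J) (hr' : ∀ Y, Sing σ J Y → finrank k Y ≤ r) (eS : n ≃ Fin (N + 1))
    (e : n' ≃ Fin (N + 1))
    (erg : ∀ R : Set E₀, Moore R → ∀ T, Cm W T → (∀ γ, T * lam γ = lam γ * T) →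
      (∀ g ∈ R, T * π g = π g * T) → ∃ z : ℂ, T = z • (1 : K →L[ℂ] K))
    (moore : ∀ R : Set (FormGroup σS JS), (∀ C : ℝ, ∃ g ∈ R, ∃ i j, C ≤ ‖g.1.1 i j‖) →
      Moore (ι '' R))
    (com : ∀ a b f g, Commute (E a f) (E b g)) (cm : ∀ a f, Cm W (E a f))
    (cov : ∀ γ a (f f' : C(SGr σ J 1, ℂ)), (∀ y, f' y = f ((q γ)⁻¹ • y)) →
      lam γ * E a f * lam γ⁻¹ = E a f')
    (pcov : ∀ g a f, π (ι g) * E a f * π (ι g)⁻¹ = E (g • a) f) (hE : Exa E) :
    ∃ τ : kS →+* k, ∀ x y, IsoP σS (Je eS JS) x y → ∀ s,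
      Cr (pt eS : SGr σS JS 1 → _) (EP e E) (qv x y s) (τ s) := by
  obtain ⟨Y, hY, hYd⟩ := hr.1
  obtain ⟨Z, hZY, hZ⟩ := exists_sub (Y := Y) (j := 2) (hr2.trans_eq hYd.symm)
  obtain ⟨b⟩ : Nonempty (Basis (Fin 2) kS Z) := ⟨finBasisOfFinrankEq kS Z hZ⟩
  have h₀ : IsoP σS JS (b 0).1 (b 1).1 := by
    refine ⟨hY _ (hZY (b 0).2) _ (hZY (b 0).2), hY _ (hZY (b 1).2) _ (hZY (b 1).2),
      hY _ (hZY (b 0).2) _ (hZY (b 1).2), ?_⟩
    have h1 : LinearIndependent kS fun i : Fin 2 => (b i : n → kS) :=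
      b.linearIndependent.map' Z.subtype (Submodule.ker_subtype Z)
    have h2 : (fun i : Fin 2 => (b i : n → kS)) = ![(b 0).1, (b 1).1] := by
      funext i
      fin_cases i <;> rfl
    rwa [h2] at h1
  exact (pl_of hF hr hF' hr' eS e h₀ erg moore com cm cov pcov hE).tau

end main

end Vale.Agent.P092.H375.P3
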