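import Vale.Agent.P092.H375.P3.Tau

/-!
P092 (helper375), [P3-TAU], part 2: the functional equations and the homomorphism `τ : kS →+* k`.
-/

set_option linter.all false

namespace Vale.Agent.P092.H375.P3

open Vale.Agent.P092 (RC.PG)
open Vale.Agent.P092.H820 Vale.Agent.P092.H466
open Vale.Agent.P092.H171 (co hom_uniq ms_restr exists_joint conj_eq comm_all pv_conj_eq)
open Vale.Agent.P092.H375.Cls Vale.Agent.P092.H375.X2
open Vale.Agent.P092.H416 (ae_exists)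
open TopologicalSpace Set MeasureTheory Matrix Module
open scoped LinearAlgebra.Projectivization Matrix InnerProductSpace

section pl

variable {kS k : Type} [NontriviallyNormedField kS] [NontriviallyNormedField k] [ProperSpace k]
  {n : ℕ} {P₀ S Γ K : Type} [Group S] [Group Γ] [NormedAddCommGroup K] [InnerProductSpace ℂ K]
  [CompleteSpace K] {pt : P₀ → ℙ kS (Fin n → kS)}
  {𝓛 : (Fin n → kS) → (Fin n → kS) → Prop}
  {x₀ y₀ : Fin n → kS} {ρ : S →* RC.PG kS n} {π : S →* (K →L[ℂ] K)} {lam : Γ →* (K →L[ℂ] K)}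
  {W : Set (K →L[ℂ] K)} {q : Γ → GL (Fin n) k}
  {E : P₀ → (C(ℙ k (Fin n → k), ℂ) →⋆ₐ[ℂ] (K →L[ℂ] K))}

/-- the cross ratio of every parameter -/
theorem PL.cr_all [Nontrivial K] (hL : PL pt 𝓛 x₀ y₀ ρ π lam W q E) {x y : Fin n → kS}
    (h : 𝓛 x y) (s : kS) : ∃ t : k, Cr pt E (qv x y s) t := by
  by_cases hs : s = 0
  · exact ⟨0, by rw [hs]; exact hL.cr_zero h⟩
  · exact hL.cr_ex h s hs

theorem Cr.uniq [Nontrivial K] (hL : PL pt 𝓛 x₀ y₀ ρ π lam W q E) {u : Fin 4 → Fin n → kS}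
    {t t' : k} (h : Cr pt E u t) (h' : Cr pt E u t') {a : Fin 4 → P₀}
    (ha : ∀ i, Pv (pt (a i)) (u i)) : t = t' := by
  obtain ⟨Φ, hΦ⟩ := hL.joint a
  obtain ⟨z, hz1, hz2⟩ := ae_exists Φ (fun ξ => (h a ha Φ hΦ ξ).and (h' a ha Φ hΦ ξ))
  exact rl_uniq hz1 hz2

theorem add_ne {x y : Fin n → kS} (hI : LinearIndependent kS ![x, y]) (s : kS) : s • x + y ≠ 0 := by
  have := ne_of hI (c := s) (d := 1) (Or.inr one_ne_zero)
  rwa [one_smul] at this

theorem mem_add (x y : Fin n → kS) (s : kS) : s • x + y ∈ Submodule.span kS {x, y} := by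
  have := mem_sp x y s 1
  rwa [one_smul] at this

/-- **[P3-TAU]** -/
theorem PL.tau [Nontrivial K] (hL : PL pt 𝓛 x₀ y₀ ρ π lam W q E) :
    ∃ τ : kS →+* k, ∀ x y, 𝓛 x y → ∀ s, Cr pt E (qv x y s) (τ s) := by
  letI : MeasurableSpace k := borel k
  haveI : BorelSpace k := ⟨rfl⟩
  have hB := hL.base
  have hI := hL.li _ _ hB
  choose t ht using fun s => hL.cr_all hB s
  -- vectors on the line
  have hn0 : x₀ ≠ 0 := hI.ne_zero 0
  have hn1 : y₀ ≠ 0 := hI.ne_zero 1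
  have hn2 : x₀ + y₀ ≠ 0 := by have := add_ne hI 1; rwa [one_smul] at this
  have hm0 : x₀ ∈ Submodule.span kS {x₀, y₀} := Submodule.subset_span (Or.inl rfl)
  have hm1 : y₀ ∈ Submodule.span kS {x₀, y₀} := Submodule.subset_span (Or.inr rfl)
  have hm2 : x₀ + y₀ ∈ Submodule.span kS {x₀, y₀} := Submodule.add_mem _ hm0 hm1
  have hns := fun s : kS => add_ne hI s
  have hms := fun s : kS => mem_add x₀ y₀ s
  -- the configuration with two more parameters
  have cfg : ∀ r : Fin 3 → kS, ∃ a : Fin 6 → P₀,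
      Pv (pt (a 0)) x₀ ∧ Pv (pt (a 1)) y₀ ∧ Pv (pt (a 2)) (x₀ + y₀) ∧
        Pv (pt (a 3)) (r 0 • x₀ + y₀) ∧ Pv (pt (a 4)) (r 1 • x₀ + y₀) ∧
          Pv (pt (a 5)) (r 2 • x₀ + y₀) := by
    intro r
    obtain ⟨a, ha⟩ := hL.pts hB ![x₀, y₀, x₀ + y₀, r 0 • x₀ + y₀, r 1 • x₀ + y₀, r 2 • x₀ + y₀]
      (fun i => by
        fin_cases i
        · exact hn0
        · exact hn1
        · exact hn2
        · exact hns _
        · exact hns _
        · exact hns _)
      (fun i => by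
        fin_cases i
        · exact hm0
        · exact hm1
        · exact hm2
        · exact hms _
        · exact hms _
        · exact hms _)
    exact ⟨a, ha 0, ha 1, ha 2, ha 3, ha 4, ha 5⟩
  -- reading off the base cross ratio
  have rd : ∀ {a : Fin 6 → P₀} {Φ : C(Fin 6 → ℙ k (Fin n → k), ℂ) →⋆ₐ[ℂ] (K →L[ℂ] K)},
      Jf (fun i => E (a i)) Φ → Pv (pt (a 0)) x₀ → Pv (pt (a 1)) y₀ → Pv (pt (a 2)) (x₀ + y₀) →
      ∀ (i : Fin 6) (s : kS), Pv (pt (a i)) (s • x₀ + y₀) → ∀ ξ, ∀ᵐ z ∂(ms Φ ξ),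
        Rl ![z 0, z 1, z 2, z i] (t s) := by
    intro a Φ hΦ h0 h1 h2 i s hi ξ
    filter_upwards [(ht s).pull hL hΦ ![0, 1, 2, i] (fun j => by
      fin_cases j
      · exact h0
      · exact h1
      · exact h2
      · exact hi) ξ] with z hz
    have e : (fun j : Fin 4 => z ((![0, 1, 2, i] : Fin 4 → Fin 6) j)) =
        ![z 0, z 1, z 2, z i] := by
      funext j
      fin_cases j <;> rfl
    rw [← e]
    exact hz
  -- reading off another cross ratio
  have rd' : ∀ {a : Fin 6 → P₀} {Φ : C(Fin 6 → ℙ k (Fin n → k), ℂ) →⋆ₐ[ℂ] (K →L[ℂ] K)},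
      Jf (fun i => E (a i)) Φ → ∀ {u : Fin 4 → Fin n → kS} {T : k}, Cr pt E u T →
      ∀ (i j l m : Fin 6), Pv (pt (a i)) (u 0) → Pv (pt (a j)) (u 1) → Pv (pt (a l)) (u 2) →
        Pv (pt (a m)) (u 3) → ∀ ξ, ∀ᵐ z ∂(ms Φ ξ), Rl ![z i, z j, z l, z m] T := by
    intro a Φ hΦ u T hu i j l m h0 h1 h2 h3 ξ
    filter_upwards [hu.pull hL hΦ ![i, j, l, m] (fun x => by
      fin_cases x
      · exact h0
      · exact h1
      · exact h2
      · exact h3) ξ] with z hz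
    have e : (fun x : Fin 4 => z ((![i, j, l, m] : Fin 4 → Fin 6) x)) =
        ![z i, z j, z l, z m] := by
      funext x
      fin_cases x <;> rfl
    rw [← e]
    exact hz
  -- injectivity
  have hinj : Function.Injective t := by
    intro s s' hss
    by_contra hne
    obtain ⟨a, a0, a1, a2, a3, a4, a5⟩ := cfg ![s, s', s]
    change Pv (pt (a 3)) (s • x₀ + y₀) at a3
    change Pv (pt (a 4)) (s' • x₀ + y₀) at a4
    obtain ⟨Φ, hΦ⟩ := hL.joint a
    have hne' : a 3 ≠ a 4 := by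
      intro e
      rw [e] at a3
      exact hne (pv_uniq hI a3 a4)
    obtain ⟨z, h3, h4, h5⟩ := ae_exists Φ (fun ξ => (rd hΦ a0 a1 a2 3 s a3 ξ).and
      ((rd hΦ a0 a1 a2 4 s' a4 ξ).and (hL.ae_ne hB hΦ hne' (sub_le a3 (hms _))
        (sub_le a4 (hms _)) ξ)))
    obtain ⟨v0, v1, hJ, g0, g1, g2, g3⟩ := rl_iff.1 h3
    have g4 := rl_frame hJ g0 g1 g2 h4
    rw [← hss] at g4
    exact h5 (g3.inj g4)
  have h0 : t 0 = 0 := by
    obtain ⟨a, ha⟩ := hL.pts hB (qv x₀ y₀ 0) (fun i => by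
      fin_cases i
      · exact hn0
      · exact hn1
      · exact hn2
      · exact hns 0) (qv_mem x₀ y₀ 0)
    exact (ht 0).uniq hL (hL.cr_zero hB) ha
  have h1 : t 1 = 1 := by
    obtain ⟨a, a0, a1, a2, a3, a4, a5⟩ := cfg ![1, 1, 1]
    obtain ⟨Φ, hΦ⟩ := hL.joint a
    have a2' : Pv (pt (a 2)) ((1 : kS) • x₀ + y₀) := by rw [one_smul]; exact a2
    obtain ⟨z, h3⟩ := ae_exists Φ (fun ξ => rd hΦ a0 a1 a2 2 1 a2' ξ)
    obtain ⟨v0, v1, hJ, g0, g1, g2, g3⟩ := rl_iff.1 h3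
    have g2' : Pv (z 2) ((1 : k) • v0 + v1) := by rw [one_smul]; exact g2
    exact pv_uniq hJ g3 g2'
  -- translation
  have un : ∀ s c, t (s + c) - t c = t s * (t (1 + c) - t c) := by
    intro s c
    obtain ⟨g, M, hg, hx, hy⟩ := hL.sl ⟨!![1, c; 0, 1], by simp⟩
    have hx' : M • x₀ = x₀ := by rw [hx]; simp
    have hy' : M • y₀ = c • x₀ + y₀ := by rw [hy]; simp
    obtain ⟨a, a0, a1, a2, a3, a4, a5⟩ := cfg ![c, 1 + c, s + c]
    change Pv (pt (a 3)) (c • x₀ + y₀) at a3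
    change Pv (pt (a 4)) ((1 + c) • x₀ + y₀) at a4
    change Pv (pt (a 5)) ((s + c) • x₀ + y₀) at a5
    obtain ⟨Φ, hΦ⟩ := hL.joint a
    have hC := (ht s).smul hL hg
    obtain ⟨z, k3, k4, k5, k6⟩ := ae_exists Φ (fun ξ => (rd hΦ a0 a1 a2 3 c a3 ξ).and
      ((rd hΦ a0 a1 a2 4 (1 + c) a4 ξ).and ((rd hΦ a0 a1 a2 5 (s + c) a5 ξ).and
        (rd' hΦ hC 0 3 4 5 (by change Pv _ (M • x₀); rw [hx']; exact a0)
          (by change Pv _ (M • y₀); rw [hy']; exact a3)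
          (by
            change Pv _ (M • (x₀ + y₀))
            rw [smul_add, hx', hy']
            have e : x₀ + (c • x₀ + y₀) = (1 + c) • x₀ + y₀ := by rw [add_smul, one_smul]; abel
            rw [e]; exact a4)
          (by
            change Pv _ (M • (s • x₀ + y₀))
            rw [smul_add, smul_comm M s x₀, hx', hy']
            have e : s • x₀ + (c • x₀ + y₀) = (s + c) • x₀ + y₀ := by rw [add_smul]; abel
            rw [e]; exact a5) ξ))))
    refine alg_un k3 k4 k5 k6 fun e => ?_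
    have := hinj e
    exact one_ne_zero (add_eq_right.1 this)
  -- scaling
  have sq : ∀ u s, u ≠ 0 → t (u ^ 2 * s) = t (u ^ 2) * t s := by
    intro u s hu
    obtain ⟨g, M, hg, hx, hy⟩ := hL.sl ⟨!![u, 0; 0, u⁻¹], by simp [hu]⟩
    have hx' : M • x₀ = u • x₀ := by rw [hx]; simp
    have hy' : M • y₀ = u⁻¹ • y₀ := by rw [hy]; simp
    obtain ⟨a, a0, a1, a2, a3, a4, a5⟩ := cfg ![u ^ 2, u ^ 2 * s, 0]
    change Pv (pt (a 3)) ((u ^ 2) • x₀ + y₀) at a3
    change Pv (pt (a 4)) ((u ^ 2 * s) • x₀ + y₀) at a4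
    obtain ⟨Φ, hΦ⟩ := hL.joint a
    have hC := (ht s).smul hL hg
    obtain ⟨z, k3, k4, k6⟩ := ae_exists Φ (fun ξ => (rd hΦ a0 a1 a2 3 _ a3 ξ).and
      ((rd hΦ a0 a1 a2 4 _ a4 ξ).and
        (rd' hΦ hC 0 1 3 4 (by change Pv _ (M • x₀); rw [hx']; exact a0.smul hu)
          (by change Pv _ (M • y₀); rw [hy']; exact a1.smul (inv_ne_zero hu))
          (by
            change Pv _ (M • (x₀ + y₀))
            rw [smul_add, hx', hy']
            have e : u • x₀ + u⁻¹ • y₀ = u⁻¹ • ((u ^ 2) • x₀ + y₀) := by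
              rw [smul_add, smul_smul]
              congr 2
              field_simp
            rw [e]; exact a3.smul (inv_ne_zero hu))
          (by
            change Pv _ (M • (s • x₀ + y₀))
            rw [smul_add, smul_comm M s x₀, hx', hy']
            have e : s • u • x₀ + u⁻¹ • y₀ = u⁻¹ • ((u ^ 2 * s) • x₀ + y₀) := by
              rw [smul_add, smul_smul, smul_smul]
              congr 2
              field_simp
            rw [e]; exact a4.smul (inv_ne_zero hu)) ξ)))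
    refine alg_dg k3 k4 k6 fun e => ?_
    exact pow_ne_zero 2 hu (hinj (e.trans h0.symm))
  -- exchange
  have iv : ∀ s, s ≠ 0 → t (-1) = t s * t (-s⁻¹) := by
    intro s hs
    obtain ⟨g, M, hg, hx, hy⟩ := hL.sl ⟨!![0, -1; 1, 0], by simp⟩
    have hx' : M • x₀ = y₀ := by rw [hx]; simp
    have hy' : M • y₀ = -x₀ := by rw [hy]; simp
    obtain ⟨a, a0, a1, a2, a3, a4, a5⟩ := cfg ![-1, -s⁻¹, 0]
    change Pv (pt (a 3)) ((-1 : kS) • x₀ + y₀) at a3
    change Pv (pt (a 4)) ((-s⁻¹) • x₀ + y₀) at a4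
    obtain ⟨Φ, hΦ⟩ := hL.joint a
    have hC := (ht s).smul hL hg
    obtain ⟨z, k3, k4, k6⟩ := ae_exists Φ (fun ξ => (rd hΦ a0 a1 a2 3 _ a3 ξ).and
      ((rd hΦ a0 a1 a2 4 _ a4 ξ).and
        (rd' hΦ hC 1 0 3 4 (by change Pv _ (M • x₀); rw [hx']; exact a1)
          (by
            change Pv _ (M • y₀)
            rw [hy', ← neg_one_smul kS x₀]
            exact a0.smul (neg_ne_zero.2 one_ne_zero))
          (by
            change Pv _ (M • (x₀ + y₀))
            rw [smul_add, hx', hy']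
            have e : y₀ + -x₀ = (-1 : kS) • x₀ + y₀ := by rw [neg_one_smul]; abel
            rw [e]; exact a3)
          (by
            change Pv _ (M • (s • x₀ + y₀))
            rw [smul_add, smul_comm M s x₀, hx', hy']
            have e : s • y₀ + -x₀ = s • ((-s⁻¹) • x₀ + y₀) := by
              rw [smul_add, smul_smul, mul_neg, mul_inv_cancel₀ hs, neg_one_smul]
              abel
            rw [e]; exact a4.smul hs) ξ)))
    refine alg_sw k3 k4 k6 fun e => ?_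
    exact (neg_ne_zero.2 one_ne_zero) (hinj (e.trans h0.symm))
  obtain ⟨τ, hτ⟩ := fld t hinj h0 h1 un sq iv
  refine ⟨τ, fun x y hxy s => ?_⟩
  -- all lines
  obtain ⟨g, M, lm, mu, hg, hlm, hmu, hx, hy⟩ := hL.tr x y hxy
  have hal : lm / mu ≠ 0 := div_ne_zero hlm hmu
  have hC : Cr pt E ![x₀, y₀, (lm / mu) • x₀ + y₀, (lm / mu * s) • x₀ + y₀] (τ s) := by
    intro b hb Ψ hΨ ξ
    obtain ⟨a, a0, a1, a2, a3, a4, a5⟩ := cfg ![lm / mu, lm / mu * s, 0]
    change Pv (pt (a 3)) ((lm / mu) • x₀ + y₀) at a3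
    change Pv (pt (a 4)) ((lm / mu * s) • x₀ + y₀) at a4
    obtain ⟨Φ, hΦ⟩ := hL.joint a
    have eb : ∀ i, b i = a ((![0, 1, 3, 4] : Fin 4 → Fin 6) i) := by
      intro i
      refine hL.ptinj ?_
      fin_cases i
      · exact (hb 0).inj a0
      · exact (hb 1).inj a1
      · exact (hb 2).inj a3
      · exact (hb 3).inj a4
    refine hΦ.push hΨ ![0, 1, 3, 4] (fun i f => by rw [eb i]) (measurableSet_rl (τ s)) ξ ?_
    filter_upwards [rd hΦ a0 a1 a2 3 _ a3 ξ, rd hΦ a0 a1 a2 4 _ a4 ξ] with z k3 k4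
    have e : (fun i : Fin 4 => z ((![0, 1, 3, 4] : Fin 4 → Fin 6) i)) =
        ![z 0, z 1, z 3, z 4] := by
      funext i
      fin_cases i <;> rfl
    rw [e]
    rw [← hτ] at k3 k4
    rw [map_mul] at k4
    exact alg_sc k3 k4 ((map_ne_zero τ).2 hal)
  have hg' : ρ g⁻¹ = QuotientGroup.mk M⁻¹ := by rw [map_inv, hg]; rfl
  have hC' := hC.smul hL hg'
  have ex : M⁻¹ • x₀ = lm⁻¹ • x := by
    rw [inv_smul_eq_iff, smul_comm M lm⁻¹ x, hx, smul_smul, inv_mul_cancel₀ hlm, one_smul]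
  have ey : M⁻¹ • y₀ = mu⁻¹ • y := by
    rw [inv_smul_eq_iff, smul_comm M mu⁻¹ y, hy, smul_smul, inv_mul_cancel₀ hmu, one_smul]
  refine hC'.scale ![lm, mu, mu, mu] (fun i => by
    fin_cases i
    · exact hlm
    · exact hmu
    · exact hmu
    · exact hmu) fun i => ?_
  fin_cases i
  · change x = lm • (M⁻¹ • x₀)
    rw [ex, smul_smul, mul_inv_cancel₀ hlm, one_smul]
  · change y = mu • (M⁻¹ • y₀)
    rw [ey, smul_smul, mul_inv_cancel₀ hmu, one_smul]
  · change x + y = mu • (M⁻¹ • ((lm / mu) • x₀ + y₀))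
    rw [smul_add M⁻¹, smul_comm M⁻¹ (lm / mu) x₀, ex, ey, smul_add, smul_smul, smul_smul, smul_smul,
      mul_inv_cancel₀ hmu, one_smul]
    have : mu * (lm / mu) * lm⁻¹ = 1 := by field_simp
    rw [this, one_smul]
  · change s • x + y = mu • (M⁻¹ • ((lm / mu * s) • x₀ + y₀))
    rw [smul_add M⁻¹, smul_comm M⁻¹ (lm / mu * s) x₀, ex, ey, smul_add, smul_smul, smul_smul,
      smul_smul, mul_inv_cancel₀ hmu, one_smul]
    have : mu * (lm / mu * s) * lm⁻¹ = s := by field_simp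
    rw [this]

end pl

end Vale.Agent.P092.H375.P3
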