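import Mathlib

/-!
P092 (helper375), [P3-TAU]: a function with the functional equations of a cross ratio is a
homomorphism of fields (every characteristic).
-/

set_option linter.all false

namespace Vale.Agent.P092.H375.P3

theorem fld {kS k : Type*} [Field kS] [Infinite kS] [Field k] (t : kS → k)
    (inj : Function.Injective t) (h0 : t 0 = 0) (h1 : t 1 = 1)
    (un : ∀ s a, t (s + a) - t a = t s * (t (1 + a) - t a))
    (sq : ∀ u s, u ≠ 0 → t (u ^ 2 * s) = t (u ^ 2) * t s)
    (iv : ∀ s, s ≠ 0 → t (-1) = t s * t (-s⁻¹)) : ∃ τ : kS →+* k, ∀ s, τ s = t s := by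
  obtain ⟨c, hc'⟩ : ∃ c, c = 2 - t (1 + 1) := ⟨_, rfl⟩
  -- the quadratic formula
  have hq : ∀ s a, t (s + a) = t s + t a - c * (t s * t a) := by
    have hD : ∀ a, t (1 + a) - t a = 1 - c * t a := by
      intro a
      have e1 := un a 1
      rw [h1, add_comm a 1] at e1
      linear_combination e1 + t a * hc'
    intro s a
    have e1 := un s a
    rw [hD] at e1
    linear_combination e1
  -- the coefficient is zero
  have hc : c = 0 := by
    by_contra hc
    have hu : ∀ u : kS, u ≠ 0 → u ^ 2 = 1 := by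
      intro u hu
      have hu2 : u ^ 2 ≠ 0 := pow_ne_zero 2 hu
      have e1 := hq 1 1
      have e2 := hq (u ^ 2 * 1) (u ^ 2 * 1)
      rw [← mul_add, sq u _ hu, sq u 1 hu, h1, e1, h1] at e2
      have hk : t (u ^ 2) ≠ 0 := fun h => hu2 (inj (h.trans h0.symm))
      have e3 : c * (t (u ^ 2) * (t (u ^ 2) - 1)) = 0 := by
        linear_combination e2
      have e4 : t (u ^ 2) = 1 :=
        sub_eq_zero.1 ((mul_eq_zero.1 ((mul_eq_zero.1 e3).resolve_left hc)).resolve_left hk)
      exact inj (e4.trans h1.symm)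
    have hfin : Set.Finite (Set.univ : Set kS) := by
      refine Set.Finite.subset (s := ({0, 1, -1} : Set kS)) (by simp) fun u _ => ?_
      by_cases h : u = 0
      · simp [h]
      · have h2 : (u - 1) * (u + 1) = 0 := by linear_combination hu u h
        rcases mul_eq_zero.1 h2 with h' | h'
        · simp [sub_eq_zero.1 h']
        · simp [eq_neg_of_add_eq_zero_left h']
    exact Set.infinite_univ hfin
  have hadd : ∀ s a, t (s + a) = t s + t a := fun s a => by
    rw [hq, hc, zero_mul, sub_zero]
  have hneg : ∀ s, t (-s) = -t s := fun s => by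
    have := hadd s (-s)
    rw [add_neg_cancel, h0] at this
    linear_combination (-1 : k) * this
  have hne : ∀ s, s ≠ 0 → t s ≠ 0 := fun s hs h => hs (inj (h.trans h0.symm))
  have hinv : ∀ s, s ≠ 0 → t s⁻¹ = (t s)⁻¹ := by
    intro s hs
    have := iv s hs
    rw [hneg, hneg, h1] at this
    have h2 : t s * t s⁻¹ = 1 := by linear_combination this
    exact eq_inv_of_mul_eq_one_right h2
  have hsq : ∀ a, t (a ^ 2) = t a ^ 2 := by
    intro a
    by_cases ha : a = 0
    · rw [ha]; simp [h0]
    by_cases ha1 : a = 1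
    · rw [ha1]; simp [h1]
    have hb : 1 - a ≠ 0 := sub_ne_zero.2 (Ne.symm ha1)
    have h3 : t (1 - a) = 1 - t a := by rw [sub_eq_add_neg, hadd, hneg, h1]; ring
    have hta := hne a ha
    have htb := hne _ hb
    have e1 : a - a ^ 2 = (a⁻¹ + (1 - a)⁻¹)⁻¹ := by
      have h4 : a⁻¹ + (1 - a)⁻¹ = (a * (1 - a))⁻¹ := by
        field_simp
        ring
      rw [h4, inv_inv]
      ring
    have hs : a⁻¹ + (1 - a)⁻¹ ≠ 0 := by
      intro h
      rw [h, inv_zero] at e1
      have h5 : a * (1 - a) = 0 := by linear_combination e1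
      rcases mul_eq_zero.1 h5 with h6 | h6
      · exact ha h6
      · exact hb h6
    have e2 : t (a - a ^ 2) = t a - t (a ^ 2) := by rw [sub_eq_add_neg, hadd, hneg]; ring
    have e3 : t (a - a ^ 2) = t a - t a ^ 2 := by
      rw [e1, hinv _ hs, hadd, hinv _ ha, hinv _ hb, h3]
      rw [h3] at htb
      have h4 : (t a)⁻¹ + (1 - t a)⁻¹ = (t a * (1 - t a))⁻¹ := by
        field_simp
        ring
      rw [h4, inv_inv]
      ring
    linear_combination e2 - e3
  have hmul : ∀ a b, t (a * b) = t a * t b := by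
    intro a b
    by_cases h2 : (2 : k) = 0
    · by_cases ha : a = 0
      · rw [ha]; simp [h0]
      have e1 : t (a * b) ^ 2 = (t a * t b) ^ 2 := by
        rw [← hsq, mul_pow, sq a _ ha, hsq, hsq]
        ring
      have e2 : (t (a * b) - t a * t b) ^ 2 = 0 := by
        linear_combination e1 + (t a * t b - t (a * b)) * (t a * t b) * h2
      exact sub_eq_zero.1 (pow_eq_zero_iff two_ne_zero |>.1 e2)
    · have e1 := hsq (a + b)
      have e2 : (a + b) ^ 2 = (a ^ 2 + b ^ 2) + (a * b + a * b) := by ring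
      rw [e2, hadd, hadd, hadd, hadd, hsq, hsq] at e1
      have e3 : 2 * (t (a * b) - t a * t b) = 0 := by linear_combination e1
      exact sub_eq_zero.1 ((mul_eq_zero.1 e3).resolve_left h2)
  exact ⟨{ toFun := t, map_one' := h1, map_mul' := hmul, map_zero' := h0, map_add' := hadd },
    fun s => rfl⟩

end Vale.Agent.P092.H375.P3
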