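import Vale.Agent.P092.H370.Fo5

/-!
P092 (helper375), [CL-PL], part 1: the isotropic lines of a form of any kind (rows): transitivity
on the ordered pairs of collinear points, `SL_2` acts on every isotropic line, unbounded pointwise
stabiliser of a line.
-/

set_option linter.all false

namespace Vale.Agent.P092.H375.P3

open Vale.Agent.P092.H303 (FormGroup)
open Vale.Agent.P092.H714.Cl
open Vale.Agent.P092.H714.Sg (Fm)
open Vale.Agent.P092.H370.Po (Sing SGr vecMul_inj)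
open Vale.Agent.P092.H370.Fo (Fo EU ei EP ei_mem_EU vecMul_ei EU_le ei_mem)
open Set Matrix Module Filter Topology

section alg

variable {n : Type} [Fintype n] [DecidableEq n] {k : Type} [Field k] {σ : k →+* k} {ε : k}
  {J : Matrix n n k}

/-- an ordered basis of an isotropic line -/
structure IsoP (σ : k →+* k) (J : Matrix n n k) (x y : n → k) : Prop where
  xx : hf σ J x x = 0
  yy : hf σ J y y = 0
  xy : hf σ J x y = 0
  li : LinearIndependent k ![x, y]

theorem IsoP.ind {x y : n → k} (h : IsoP σ J x y) : ∀ a b : k, a • x + b • y = 0 → a = 0 ∧ b = 0 :=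
  LinearIndependent.pair_iff.1 h.li

theorem IsoP.swap (hF : Fm σ ε J) {x y : n → k} (h : IsoP σ J x y) : IsoP σ J y x :=
  ⟨h.yy, h.xx, hF.symm0 h.xy, LinearIndependent.pair_iff.2 fun a b e =>
    (h.ind b a (by rw [add_comm]; exact e)).symm⟩

theorem IsoP.x0 {x y : n → k} (h : IsoP σ J x y) : x ≠ 0 := h.li.ne_zero 0

theorem IsoP.y0 {x y : n → k} (h : IsoP σ J x y) : y ≠ 0 := h.li.ne_zero 1

/-- **transitivity on the ordered pairs of collinear points** -/
theorem tr2 (hF : Fo σ ε J) {x y x₀ y₀ : n → k} (h : IsoP σ J x y) (h₀ : IsoP σ J x₀ y₀) :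
    ∃ g ∈ EU σ ε J, ∃ a b : k, a ≠ 0 ∧ b ≠ 0 ∧ x ᵥ* g.1 = a • x₀ ∧ y ᵥ* g.1 = b • y₀ := by
  obtain ⟨g, hg, a, ha, hga, -⟩ := H370.Fo.exists_adj hF (Z := ⊥) H370.Po.sing_bot h.xx h₀.xx
    (fun z hz => by rw [(Submodule.mem_bot k).1 hz, hf_zero_left])
    (fun z hz => by rw [(Submodule.mem_bot k).1 hz, hf_zero_left])
    (fun hb => h.x0 ((Submodule.mem_bot k).1 hb)) (fun hb => h₀.x0 ((Submodule.mem_bot k).1 hb))
  have hgF := EU_le hF.fm hg
  have h1 : hf σ J x₀ (y ᵥ* g.1) = 0 := by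
    have e := mem_formGroup.1 hgF x y
    rw [hga, hf_smul_left, h.xy] at e
    exact (mul_eq_zero.1 e).resolve_left ha
  have h2 : y ᵥ* g.1 ∉ Submodule.span k {x₀} := by
    intro hc
    obtain ⟨c, hc⟩ := Submodule.mem_span_singleton.1 hc
    have e : (c / a) • x + (-1 : k) • y = 0 := by
      apply vecMul_inj g
      change ((c / a) • x + (-1 : k) • y) ᵥ* g.1 = (0 : n → k) ᵥ* g.1
      rw [add_vecMul, smul_vecMul, smul_vecMul, hga, ← hc, smul_smul, div_mul_cancel₀ c ha,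
        zero_vecMul]
      module
    have := (h.ind _ _ e).2
    exact neg_ne_zero.2 one_ne_zero this
  have h3 : y₀ ∉ Submodule.span k {x₀} := by
    intro hc
    obtain ⟨c, hc⟩ := Submodule.mem_span_singleton.1 hc
    have := (h₀.ind c (-1) (by rw [hc]; module)).2
    exact neg_ne_zero.2 one_ne_zero this
  have hs : Sing σ J (Submodule.span k {x₀}) := by
    intro u hu v hv
    obtain ⟨c, rfl⟩ := Submodule.mem_span_singleton.1 hu
    obtain ⟨d, rfl⟩ := Submodule.mem_span_singleton.1 hv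
    rw [hf_smul_left, hf_smul_right, h₀.xx, mul_zero, mul_zero]
  obtain ⟨g', hg', b, hb, hgb, hgf⟩ := H370.Fo.exists_adj hF hs (iso_vecMul hgF h.yy) h₀.yy
    (fun z hz => by
      obtain ⟨c, rfl⟩ := Submodule.mem_span_singleton.1 hz
      rw [hf_smul_left, h1, mul_zero])
    (fun z hz => by
      obtain ⟨c, rfl⟩ := Submodule.mem_span_singleton.1 hz
      rw [hf_smul_left, h₀.xy, mul_zero]) h2 h3
  refine ⟨g * g', mul_mem hg hg', a, b, ha, hb, ?_, ?_⟩
  · rw [vecMul_mul', hga, smul_vecMul, hgf x₀ (Submodule.mem_span_singleton_self x₀)]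
  · rw [vecMul_mul', hgb]

/-- a partner of `x`, orthogonal to `y` -/
theorem IsoP.partner (hF : Fm σ ε J) {x y : n → k} (h : IsoP σ J x y) :
    ∃ w, hf σ J w w = 0 ∧ hf σ J x w = 1 ∧ hf σ J y w = 0 := by
  have h3 : x ∉ Submodule.span k {y} := by
    intro hc
    obtain ⟨c, hc⟩ := Submodule.mem_span_singleton.1 hc
    have := (h.ind (-1) c (by rw [hc]; module)).1
    exact neg_ne_zero.2 one_ne_zero this
  obtain ⟨w, h1, h2, hw⟩ := hF.partner h.xx h3 (fun z hz => by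
    obtain ⟨c, rfl⟩ := Submodule.mem_span_singleton.1 hz
    rw [hf_smul_left, hF.symm0 h.xy, mul_zero])
  exact ⟨w, h1, h2, hw y (Submodule.mem_span_singleton_self y)⟩

/-- an elementary matrix on the line -/
theorem el (hF : Fm σ ε J) {x y : n → k} (h : IsoP σ J x y) (t : k) :
    ∃ g ∈ EU σ ε J, x ᵥ* g.1 = x + t • y ∧ y ᵥ* g.1 = y := by
  obtain ⟨w, hw, hxw, hyw⟩ := h.partner hF
  have hE : EP σ ε J w (t • y) 0 :=
    { uu := hw
      vu := by rw [hf_smul_left, hyw, mul_zero]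
      vv := by
        rw [hf_smul_left, hf_smul_right, h.yy, map_zero, mul_zero, mul_zero, mul_zero, add_zero,
          add_zero] }
  refine ⟨ei σ ε J w (t • y) 0, ei_mem_EU hE, ?_, ?_⟩
  · rw [vecMul_ei hF hE, hxw, hf_smul_right, h.xy]
    module
  · rw [vecMul_ei hF hE, hyw, hf_smul_right, h.yy]
    module

/-- `A` is realised on the line -/
def Rz (σ : k →+* k) (ε : k) (J : Matrix n n k) (x y : n → k) (A : Matrix (Fin 2) (Fin 2) k) :
    Prop :=
  ∃ g ∈ EU σ ε J, x ᵥ* g.1 = A 0 0 • x + A 1 0 • y ∧ y ᵥ* g.1 = A 0 1 • x + A 1 1 • y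

theorem Rz.mul {x y : n → k} {A B : Matrix (Fin 2) (Fin 2) k} (hA : Rz σ ε J x y A)
    (hB : Rz σ ε J x y B) : Rz σ ε J x y (A * B) := by
  obtain ⟨g, hg, h1, h2⟩ := hA
  obtain ⟨g', hg', h1', h2'⟩ := hB
  refine ⟨g' * g, mul_mem hg' hg, ?_, ?_⟩
  · rw [vecMul_mul', h1', add_vecMul, smul_vecMul, smul_vecMul, h1, h2]
    simp only [Matrix.mul_apply, Fin.sum_univ_two]
    match_scalars <;> ring
  · rw [vecMul_mul', h2', add_vecMul, smul_vecMul, smul_vecMul, h1, h2]
    simp only [Matrix.mul_apply, Fin.sum_univ_two]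
    match_scalars <;> ring

theorem rz_lower (hF : Fm σ ε J) {x y : n → k} (h : IsoP σ J x y) (t : k) :
    Rz σ ε J x y !![1, 0; t, 1] := by
  obtain ⟨g, hg, h1, h2⟩ := el hF h t
  refine ⟨g, hg, ?_, ?_⟩
  · rw [h1]
    simp
  · rw [h2]
    simp

theorem rz_upper (hF : Fm σ ε J) {x y : n → k} (h : IsoP σ J x y) (t : k) :
    Rz σ ε J x y !![1, t; 0, 1] := by
  obtain ⟨g, hg, h1, h2⟩ := el hF (h.swap hF) t
  refine ⟨g, hg, ?_, ?_⟩
  · rw [h2]
    simp
  · rw [h1]
    simp [add_comm]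

/-- **`SL_2` acts on every isotropic line** -/
theorem sl2 (hF : Fm σ ε J) {x y : n → k} (h : IsoP σ J x y) (A : SpecialLinearGroup (Fin 2) k) :
    Rz σ ε J x y A.1 := by
  have key : ∀ B : Matrix (Fin 2) (Fin 2) k, B.det = 1 → B 1 0 ≠ 0 → Rz σ ε J x y B := by
    intro B hd hc
    rw [det_fin_two] at hd
    have e : B = !![1, (B 0 0 - 1) / B 1 0; 0, 1] * (!![1, 0; B 1 0, 1] *
        !![1, (B 1 1 - 1) / B 1 0; 0, 1]) := by
      ext i j
      fin_cases i <;> fin_cases j <;> simp [Matrix.mul_apply, Fin.sum_univ_two] <;> field_simp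
      · ring
      · linear_combination -hd
      · ring
    rw [e]
    exact (rz_upper hF h _).mul ((rz_lower hF h _).mul (rz_upper hF h _))
  have hdA : A.1.det = 1 := A.2
  by_cases hc : A.1 1 0 = 0
  · have h11 : A.1 1 1 ≠ 0 := by
      intro h0
      rw [det_fin_two, hc, h0, mul_zero, mul_zero, sub_zero] at hdA
      exact zero_ne_one hdA
    have e : A.1 = (A.1 * !![1, 0; 1, 1]) * !![1, 0; -1, 1] := by
      rw [Matrix.mul_assoc]
      ext i j
      fin_cases i <;> fin_cases j <;> simp [Matrix.mul_apply, Fin.sum_univ_two]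
    rw [e]
    refine (key _ ?_ ?_).mul (rz_lower hF h _)
    · rw [det_mul, hdA, det_fin_two]
      simp
    · simp [Matrix.mul_apply, Fin.sum_univ_two, hc, h11]
  · exact key _ hdA hc

end alg

section top

variable {n : Type} [Fintype n] [DecidableEq n] {k : Type} [NontriviallyNormedField k]
  {σ : k →+* k} {ε : k} {J : Matrix n n k}

/-- **the pointwise stabiliser of an isotropic line is unbounded** -/
theorem unb2' (hF : Fm σ ε J) {x y : n → k} (h : IsoP σ J x y) (C : ℝ) :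
    ∃ g : FormGroup σ J, g.1 ∈ EU σ ε J ∧ (∀ v ∈ Submodule.span k {x, y}, v ᵥ* g.1.1 = v) ∧
      ∃ i j, C ≤ ‖g.1.1 i j‖ := by
  obtain ⟨r, hr1⟩ := NormedField.exists_one_lt_norm k
  obtain ⟨w, hw, hxw, hyw⟩ := h.partner hF
  have hwx : hf σ J w x = ε := H370.Fo.Fm.swap1 hF hxw
  have hwy : hf σ J w y = 0 := hF.symm0 hyw
  have hyx : hf σ J y x = 0 := hF.symm0 h.xy
  obtain ⟨i, hi⟩ := Function.ne_iff.1 h.y0
  have hE : ∀ t : k, EP σ ε J x (t • y) 0 := fun t =>
    { uu := h.xx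
      vu := by rw [hf_smul_left, hyx, mul_zero]
      vv := by
        rw [hf_smul_left, hf_smul_right, h.yy, map_zero, mul_zero, mul_zero, mul_zero, add_zero,
          add_zero] }
  let g : ℕ → FormGroup σ J := fun N => ⟨ei σ ε J x (r ^ N • y) 0, ei_mem hF (hE _)⟩
  have hfix : ∀ N, ∀ v ∈ Submodule.span k {x, y}, v ᵥ* (g N).1.1 = v := by
    intro N v hv
    obtain ⟨a, b, rfl⟩ := Submodule.mem_span_pair.1 hv
    change _ ᵥ* (ei σ ε J x (r ^ N • y) 0).1 = _
    rw [vecMul_ei hF (hE _)]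
    simp only [hf_add_left, hf_smul_left, hf_smul_right, h.xx, h.xy, h.yy, hyx, mul_zero,
      add_zero, zero_smul, sub_zero, zero_mul]
  have hval : ∀ N, (w ᵥ* (g N).1.1) i = w i + r ^ N * (ε * y i) := by
    intro N
    change (w ᵥ* (ei σ ε J x (r ^ N • y) 0).1) i = _
    rw [vecMul_ei hF (hE _), hwx, hf_smul_right, hwy]
    simp only [Pi.add_apply, Pi.sub_apply, Pi.smul_apply, smul_eq_mul]
    ring
  have ht : Tendsto (fun N => ‖(w ᵥ* (g N).1.1) i‖) atTop atTop := by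
    have h1 : Tendsto (fun N : ℕ => ‖r‖ ^ N * ‖ε * y i‖ - ‖w i‖) atTop atTop := by
      refine tendsto_atTop_add_const_right _ _ ?_
      refine (tendsto_pow_atTop_atTop_of_one_lt hr1).atTop_mul_const (norm_pos_iff.2 ?_)
      exact mul_ne_zero (H370.Fo.Fm.eps_ne hF) hi
    refine tendsto_atTop_mono (fun N => ?_) h1
    rw [hval, ← norm_pow, ← norm_mul]
    have := norm_sub_norm_le (r ^ N * (ε * y i)) (-w i)
    rw [norm_neg, sub_neg_eq_add, add_comm] at this
    exact this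
  obtain ⟨m, hm⟩ := (ht.eventually_gt_atTop (∑ j, ‖w j‖ * C)).exists
  refine ⟨g m, ei_mem_EU (hE _), hfix m, ?_⟩
  by_contra hcon
  push Not at hcon
  apply absurd hm
  rw [not_lt]
  calc ‖(w ᵥ* (g m).1.1) i‖ = ‖∑ j, w j * (g m).1.1 j i‖ := rfl
    _ ≤ ∑ j, ‖w j * (g m).1.1 j i‖ := norm_sum_le _ _
    _ ≤ ∑ j, ‖w j‖ * C := by
      refine Finset.sum_le_sum fun j _ => ?_
      rw [norm_mul]
      exact mul_le_mul_of_nonneg_left (hcon j i).le (norm_nonneg _)

theorem unb2 (hF : Fm σ ε J) {x y : n → k} (h : IsoP σ J x y) (C : ℝ) :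
    ∃ g : FormGroup σ J, (∀ v ∈ Submodule.span k {x, y}, v ᵥ* g.1.1 = v) ∧
      ∃ i j, C ≤ ‖g.1.1 i j‖ := by
  obtain ⟨g, -, h1, h2⟩ := unb2' hF h C
  exact ⟨g, h1, h2⟩

end top

end Vale.Agent.P092.H375.P3
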