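import Vale.Agent.P092.H416.CLlet
import Vale.Agent.P092.H375.P3.GeoA
import Vale.Agent.P092.H375.P3.Tau2
import Vale.Agent.P092.H35.Spg

/-!
P092 (helper375), [CL-PL], part 2: the geometric half of `PL` for the isometry group of a form.
-/

set_option linter.all false

namespace Vale.Agent.P092.H375.P3

open Vale.Agent.P092.H303 (FormGroup)
open Vale.Agent.P092.H714.Cl
open Vale.Agent.P092.H370.Po
open Vale.Agent.P092.H416.CL
open Vale.Agent.P092.H820 Vale.Agent.P092.H466
open Vale.Agent.P092.H171 (co exists_joint)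
open Vale.Agent.P092.RC (Cm Moore)
open Vale.Agent.P092.H35 (sp)
open TopologicalSpace Set Matrix Module Filter Topology MeasureTheory
open scoped LinearAlgebra.Projectivization Matrix InnerProductSpace

section col

variable {n : Type} [Fintype n] [DecidableEq n] {k : Type} [Field k] {σ : k →+* k} {ε : k}
  {J : Matrix n n k} {N : ℕ}

theorem cor_zero_iff (e : n ≃ Fin (N + 1)) {v : n → k} : cor e v = 0 ↔ v = 0 :=
  ⟨fun h => by
    by_contra h'
    exact cor_ne h' h, fun h => by rw [h]; rfl⟩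

theorem isoP_cor (e : n ≃ Fin (N + 1)) {x y : n → k} :
    IsoP σ (Je e J) (cor e x) (cor e y) ↔ IsoP σ J x y := by
  have hl : LinearIndependent k ![cor e x, cor e y] ↔ LinearIndependent k ![x, y] := by
    rw [LinearIndependent.pair_iff, LinearIndependent.pair_iff]
    refine forall₂_congr fun a b => ?_
    rw [← cor_smul, ← cor_smul, ← cor_add, cor_zero_iff]
  constructor
  · intro h
    exact ⟨by rw [← hf_cor e, h.xx], by rw [← hf_cor e, h.yy], by rw [← hf_cor e, h.xy], hl.1 h.li⟩
  · intro h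
    exact ⟨by rw [hf_cor, h.xx], by rw [hf_cor, h.yy], by rw [hf_cor, h.xy], hl.2 h.li⟩

/-- every vector of an isotropic line is isotropic -/
theorem iso_span (hF : Frm σ ε J) {x y v : n → k} (h : IsoP σ J x y)
    (hv : v ∈ Submodule.span k {x, y}) : hf σ J v v = 0 := by
  obtain ⟨a, b, rfl⟩ := Submodule.mem_span_pair.1 hv
  simp only [hf_add_left, hf_add_right, hf_smul_left, hf_smul_right, h.xx, h.yy, h.xy,
    hF.symm_zero h.xy, mul_zero, add_zero]

end col

section act

variable {n : Type} [Fintype n] [DecidableEq n] {k : Type} [NontriviallyNormedField k]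
  {σ : k →+* k} {ε : k} {J : Matrix n n k} {N : ℕ}

/-- the action on the projective space -/
noncomputable def rhoP (e : n ≃ Fin (N + 1)) (σ : k →+* k) (J : Matrix n n k) :
    FormGroup σ J →* RC.PG k (N + 1) := (sp k (N + 1)).comp (rho e σ J)

/-- the same in `GL` -/
noncomputable def rhoG (e : n ≃ Fin (N + 1)) (σ : k →+* k) (J : Matrix n n k)
    (g : FormGroup σ J) : GL (Fin (N + 1)) k := SpecialLinearGroup.toGL (rho e σ J g)

theorem rhoP_mk (e : n ≃ Fin (N + 1)) (g : FormGroup σ J) :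
    rhoP e σ J g = QuotientGroup.mk (rhoG e σ J g) := rfl

theorem rhoP_smul (e : n ≃ Fin (N + 1)) (g : FormGroup σ J) (z : ℙ k (Fin (N + 1) → k)) :
    rhoP e σ J g • z = rho e σ J g • z := rfl

theorem rhoG_smul (e : n ≃ Fin (N + 1)) (g : FormGroup σ J) (z : ℙ k (Fin (N + 1) → k)) :
    rhoG e σ J g • z = rho e σ J g • z := rfl

theorem rhoG_inv (e : n ≃ Fin (N + 1)) (g : FormGroup σ J) :
    (rhoG e σ J g)⁻¹ = rhoG e σ J g⁻¹ := by
  unfold rhoG
  rw [map_inv, map_inv]

theorem rhoG_cor (e : n ≃ Fin (N + 1)) (g : FormGroup σ J) (v : n → k) :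
    rhoG e σ J g⁻¹ • cor e v = cor e (v ᵥ* g.1.1) := by
  have h := rho_cor e g⁻¹ v
  have e1 : ((g⁻¹).1)⁻¹ = g.1 := inv_inv g.1
  rw [e1] at h
  exact h

end act

end Vale.Agent.P092.H375.P3
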