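import Vale.Agent.P092.H375.P3.GeoA

/-!
P092 (helper375), [CL-PL], part 3: collinearity of points and `different points` from the exact
perpendicularity of pairs, every Witt index (finite geometry). Source form and target form may be
different.
-/

set_option linter.all false

namespace Vale.Agent.P092.H375.P3

open Vale.Agent.P092.H303 (FormGroup)
open Vale.Agent.P092.H714.Cl
open Vale.Agent.P092.H714.Sg (Fm)
open Vale.Agent.P092.H370.Po (Sing SGr Col Ort WI finrank_sup_span ort_sup_left ort_sup_right
  ort_span_left ort_span_right)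
open Vale.Agent.P092.H370.Fo (Fo Wf ptv ptv_S exists_ptv col_ptv)
open Set Matrix Module Filter Topology

section alg

variable {n : Type} [Fintype n] [DecidableEq n] {k : Type} [Field k] {σ : k →+* k} {ε : k}
  {J : Matrix n n k}

/-- different points have different orthogonals -/
theorem lin_dst (hF : Fm σ ε J) {a b : SGr σ J 1} (h : a ≠ b) :
    ∃ d : SGr σ J 1, Col d a ∧ ¬ Col d b := by
  by_cases hc : Col a b
  · obtain ⟨x, x0, xx, rfl⟩ := exists_ptv a
    obtain ⟨y, y0, yy, rfl⟩ := exists_ptv b
    have hxy : hf σ J x y = 0 := (col_ptv x0 xx y0 yy).1 hc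
    have h3 : y ∉ Submodule.span k {x} := fun h' =>
      h ((H370.Fo.ptv_eq y0 yy x0 xx).2 h').symm
    obtain ⟨w, h1, h2, hw⟩ := hF.partner yy h3 (fun z hz => by
      obtain ⟨c, rfl⟩ := Submodule.mem_span_singleton.1 hz
      rw [hf_smul_left, hxy, mul_zero])
    have hw0 : w ≠ 0 := by
      rintro rfl
      rw [hf_zero_right] at h2
      exact zero_ne_one h2
    refine ⟨ptv w hw0 h1, (col_ptv _ _ _ _).2 (hF.symm0 (hw x (Submodule.mem_span_singleton_self x))),
      fun hd => ?_⟩
    have := hF.symm0 ((col_ptv _ _ _ _).1 hd)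
    rw [h2] at this
    exact one_ne_zero this
  · exact ⟨a, a.sing, hc⟩

theorem sing_add (hF : Fm σ ε J) {X : Submodule k (n → k)} (hX : Sing σ J X) {v : n → k}
    (hv : hf σ J v v = 0) (h : ∀ x ∈ X, hf σ J x v = 0) :
    Sing σ J (X ⊔ Submodule.span k {v}) := by
  unfold Sing
  rw [ort_sup_left, ort_sup_right, ort_sup_right, ort_span_left, ort_span_right]
  refine ⟨⟨hX, h⟩, fun x hx => hF.symm0 (h x hx), ?_⟩
  rw [ort_span_left]
  intro y hy
  obtain ⟨a, rfl⟩ := Submodule.mem_span_singleton.1 hy
  rw [hf_smul_right, hv, mul_zero]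

theorem hf_sum_left {ι : Type*} (s : Finset ι) (f : ι → n → k) (y : n → k) :
    hf σ J (∑ i ∈ s, f i) y = ∑ i ∈ s, hf σ J (f i) y := by
  classical
  induction s using Finset.induction_on with
  | empty => rw [Finset.sum_empty, Finset.sum_empty, hf_zero_left]
  | insert a s ha ih => rw [Finset.sum_insert ha, Finset.sum_insert ha, hf_add_left, ih]

theorem hf_sum_right {ι : Type*} (s : Finset ι) (f : ι → n → k) (y : n → k) :
    hf σ J y (∑ i ∈ s, f i) = ∑ i ∈ s, hf σ J y (f i) := by
  classical
  induction s using Finset.induction_on with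
  | empty => rw [Finset.sum_empty, Finset.sum_empty, hf_zero_right]
  | insert a s ha ih => rw [Finset.sum_insert ha, Finset.sum_insert ha, hf_add_right, ih]

/-- the target half: a singular system with dual vectors, a point orthogonal to it -/
theorem lin_tgt {r : ℕ} (hF : Fm σ ε J) (hr : ∀ Y, Sing σ J Y → finrank k Y ≤ r) {κ : Type}
    [Fintype κ] (hκ : Fintype.card κ = r) {U W : κ → n → k} {u : n → k}
    (hUU : ∀ i j, hf σ J (U i) (U j) = 0) (hUW : ∀ i j, hf σ J (U i) (W j) = 0 ↔ i ≠ j)
    (huu : hf σ J u u = 0) (huU : ∀ i, hf σ J (U i) u = 0) {i₀ i₁ : κ}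
    (hu : ∀ j, j ≠ i₀ → j ≠ i₁ → hf σ J u (W j) = 0) :
    u ∈ Submodule.span k {U i₀} ⊔ Submodule.span k {U i₁} := by
  classical
  have hli : LinearIndependent k U := by
    rw [Fintype.linearIndependent_iff]
    intro c hc j
    have h1 : hf σ J (∑ i, c i • U i) (W j) = 0 := by rw [hc, hf_zero_left]
    rw [hf_sum_left, Finset.sum_eq_single j] at h1
    · rw [hf_smul_left] at h1
      exact (mul_eq_zero.1 h1).resolve_right fun h => (hUW j j).1 h rfl
    · intro i _ hij
      rw [hf_smul_left, (hUW i j).2 hij, mul_zero]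
    · exact fun h => absurd (Finset.mem_univ _) h
  have hsp : ∀ x ∈ Submodule.span k (range U), ∃ c : κ → k, ∑ i, c i • U i = x := fun x hx =>
    (Submodule.mem_span_range_iff_exists_fun k).1 hx
  have hS : Sing σ J (Submodule.span k (range U)) := by
    intro x hx y hy
    obtain ⟨c, rfl⟩ := hsp x hx
    obtain ⟨d, rfl⟩ := hsp y hy
    rw [hf_sum_left]
    refine Finset.sum_eq_zero fun i _ => ?_
    rw [hf_sum_right]
    refine Finset.sum_eq_zero fun j _ => ?_
    rw [hf_smul_left, hf_smul_right, hUU, mul_zero, mul_zero]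
  have hdim : finrank k (Submodule.span k (range U)) = r := by
    rw [finrank_span_eq_card hli, hκ]
  have hmem : u ∈ Submodule.span k (range U) := by
    by_contra hnot
    have h1 := hr _ (sing_add hF hS huu fun x hx => by
      obtain ⟨c, rfl⟩ := hsp x hx
      rw [hf_sum_left]
      refine Finset.sum_eq_zero fun i _ => ?_
      rw [hf_smul_left, huU, mul_zero])
    rw [finrank_sup_span hnot, hdim] at h1
    omega
  obtain ⟨c, rfl⟩ := hsp u hmem
  have hc : ∀ j, j ≠ i₀ → j ≠ i₁ → c j = 0 := by
    intro j h0 h1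
    have h2 := hu j h0 h1
    rw [hf_sum_left, Finset.sum_eq_single j] at h2
    · rw [hf_smul_left] at h2
      exact (mul_eq_zero.1 h2).resolve_right fun h => (hUW j j).1 h rfl
    · intro i _ hij
      rw [hf_smul_left, (hUW i j).2 hij, mul_zero]
    · exact fun h => absurd (Finset.mem_univ _) h
  refine Submodule.sum_mem _ fun j _ => ?_
  by_cases h0 : j = i₀
  · subst h0
    exact Submodule.mem_sup_left (Submodule.smul_mem _ _ (Submodule.mem_span_singleton_self _))
  · by_cases h1 : j = i₁
    · subst h1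
      exact Submodule.mem_sup_right (Submodule.smul_mem _ _ (Submodule.mem_span_singleton_self _))
    · rw [hc j h0 h1, zero_smul]
      exact Submodule.zero_mem _

/-- the source half: a basis of a maximal singular space through `a`, `b`, dual isotropic vectors -/
theorem lin_src {r : ℕ} (hF : Fo σ ε J) (hr : WI σ J r) {x y : n → k} (h : IsoP σ J x y) :
    ∃ (κ : Type) (_ : Fintype κ) (_ : Fintype.card κ = r) (v w : κ → n → k) (i₀ i₁ : κ),
      v i₀ = x ∧ v i₁ = y ∧ i₀ ≠ i₁ ∧ (∀ i j, hf σ J (v i) (v j) = 0) ∧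
      (∀ i, hf σ J (w i) (w i) = 0) ∧ (∀ i j, hf σ J (v i) (w j) = 0 ↔ i ≠ j) := by
  classical
  have hxy : Sing σ J (Submodule.span k {x, y}) := by
    intro u hu v hv
    obtain ⟨a, b, rfl⟩ := Submodule.mem_span_pair.1 hu
    obtain ⟨c, d, rfl⟩ := Submodule.mem_span_pair.1 hv
    simp only [hf_add_left, hf_add_right, hf_smul_left, hf_smul_right, h.xx, h.yy, h.xy,
      hF.fm.symm0 h.xy, mul_zero, add_zero]
  have hne : x ≠ y := by
    rintro rfl
    have := (h.ind 1 (-1) (by module)).1
    exact one_ne_zero this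
  obtain ⟨⟨Y, hY, hYd⟩, hmax⟩ := hr
  have hle := hmax _ hxy
  obtain ⟨M, hM1, hM2, hM3⟩ := H370.Fo.exists_above hF hxy hY hle (hYd.ge)
  have hli : LinearIndepOn k id ({x, y} : Set (n → k)) := by
    rw [LinearIndepOn.pair_iff id hne]
    exact h.ind
  obtain ⟨b, hbM, hsb, hMb, hb⟩ := exists_linearIndepOn_id_extension hli
    (fun z hz => hM1 (Submodule.subset_span hz) : ({x, y} : Set (n → k)) ⊆ (M : Set (n → k)))
  have hbI : LinearIndependent k (fun i : b => (i : n → k)) := hb
  haveI : Finite b := hbI.finite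
  haveI : Fintype b := Fintype.ofFinite b
  have hspan : Submodule.span k (range fun i : b => (i : n → k)) = M := by
    rw [Subtype.range_coe]
    exact le_antisymm (Submodule.span_le.2 hbM) hMb
  have hcard : Fintype.card b = r := by
    rw [← finrank_span_eq_card hbI, hspan, hM3]
  let B : Basis b k (Submodule.span k (range fun i : b => (i : n → k))) := Basis.span hbI
  have hSg : Sing σ J (Submodule.span k (range fun i : b => (i : n → k))) := by
    rw [hspan]; exact hM2
  have hBv : ∀ i : b, (⟨(i : n → k), Submodule.subset_span ⟨i, rfl⟩⟩ :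
      Submodule.span k (range fun i : b => (i : n → k))) = B i := fun i =>
    (Basis.span_apply hbI i).symm
  have hdual : ∀ j : b, ∃ w, hf σ J w w = 0 ∧ ∀ i : b, hf σ J (i : n → k) w =
      if i = j then 1 else 0 := by
    intro j
    obtain ⟨w, h1, h2⟩ := H370.Fo.exists_iso_prod hF hSg (B.coord j) (fun h0 => by
      have h3 : B.coord j (B j) = 0 := by rw [h0]; rfl
      rw [Basis.coord_apply, Basis.repr_self, Finsupp.single_eq_same] at h3
      exact one_ne_zero h3)
    refine ⟨w, h1, fun i => ?_⟩
    have h3 := h2 ⟨(i : n → k), Submodule.subset_span ⟨i, rfl⟩⟩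
    have h4 : (B.coord j) ⟨(i : n → k), Submodule.subset_span ⟨i, rfl⟩⟩ = if i = j then 1 else 0 := by
      rw [hBv, Basis.coord_apply, Basis.repr_self, Finsupp.single_apply]
    rw [h4] at h3
    exact h3
  choose w hw1 hw2 using hdual
  refine ⟨b, inferInstance, hcard, fun i => (i : n → k), w, ⟨x, hsb (by simp)⟩,
    ⟨y, hsb (by simp)⟩, rfl, rfl, fun h => hne (congrArg Subtype.val h), fun i j => ?_, hw1,
    fun i j => ?_⟩
  · exact hM2 _ (hbM i.2) _ (hbM j.2)
  · rw [hw2]
    by_cases hij : i = j
    · simp [hij]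
    · simp [hij]

end alg

end Vale.Agent.P092.H375.P3
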