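import Vale.Agent.P092.H375.P3.GeoB
import Vale.Agent.P092.H375.P3.GeoC

/-!
P092 (helper375), [CL-PL], part 4: `dst` and `col` of `PL` from the exact perpendicularity of pairs
of points. Source form and target form may be different (two fields).
-/

set_option linter.all false

namespace Vale.Agent.P092.H375.P3

open Vale.Agent.P092.H303 (FormGroup)
open Vale.Agent.P092.H714.Cl
open Vale.Agent.P092.H714.Sg (Fm)
open Vale.Agent.P092.H370.Po
open Vale.Agent.P092.H370.Fo (Fo Wf ptv ptv_S exists_ptv col_ptv)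
open Vale.Agent.P092.H416.CL
open Vale.Agent.P092.H820 Vale.Agent.P092.H466
open Vale.Agent.P092.H171 (co exists_joint)
open Vale.Agent.P092.H375.X2 (Jf)
open TopologicalSpace Set Matrix Module Filter Topology MeasureTheory
open scoped LinearAlgebra.Projectivization Matrix InnerProductSpace

/-! ### The subspace of a point -/

section sub

variable {n : Type} [Fintype n] [DecidableEq n] {k : Type} [NontriviallyNormedField k]
  {σ : k →+* k} {J : Matrix n n k} {N : ℕ}

/-- the coordinates as a linear map -/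
def corL (e : n ≃ Fin (N + 1)) : (n → k) →ₗ[k] (Fin (N + 1) → k) where
  toFun := cor e
  map_add' := cor_add e
  map_smul' := cor_smul e

theorem corL_inj (e : n ≃ Fin (N + 1)) : Function.Injective (corL e : (n → k) →ₗ[k] _) :=
  fun v w h => by
    have h1 : cor e v = cor e w := h
    rw [← roc_cor e v, h1, roc_cor]

theorem pt_sub (e : n ≃ Fin (N + 1)) (X : SGr σ J 1) :
    (pt e X).submodule = X.S.map (corL e) := by
  obtain ⟨x, hx, hX⟩ := H416.CL.exists_vec X
  rw [pt_eq e hx (mem_of_span hX), hX, Submodule.map_span, image_singleton]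
  exact Projectivization.submodule_mk _ _

theorem pt_le (e : n ≃ Fin (N + 1)) {X Y Z : SGr σ J 1} :
    (pt e X).submodule ≤ (pt e Y).submodule ⊔ (pt e Z).submodule ↔ X.S ≤ Y.S ⊔ Z.S := by
  rw [pt_sub, pt_sub, pt_sub, ← Submodule.map_sup]
  constructor
  · intro h x hx
    obtain ⟨y, hy, hyx⟩ := h ⟨x, hx, rfl⟩
    rw [← corL_inj e hyx]
    exact hy
  · exact fun h => Submodule.map_mono h

/-- collinearity of three points of the projective space is measurable -/
theorem meas_col [ProperSpace k] {m : ℕ} : MeasurableSet {z : Fin 3 → ℙ k (Fin m → k) |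
    (z 2).submodule ≤ (z 0).submodule ⊔ (z 1).submodule} := by
  classical
  have e : {z : Fin 3 → ℙ k (Fin m → k) |
      (z 2).submodule ≤ (z 0).submodule ⊔ (z 1).submodule} =
      ⋃ r : ℕ, {z | Cls.rk z {0, 1} = r} ∩ {z | Cls.rk z {0, 1, 2} = r} := by
    ext z
    have h1 : (⨆ i ∈ ({0, 1} : Finset (Fin 3)), (z i).submodule : Submodule k (Fin m → k)) =
        (z 0).submodule ⊔ (z 1).submodule := by
      rw [Finset.iSup_insert, Finset.iSup_singleton]
    have h2 : (⨆ i ∈ ({0, 1, 2} : Finset (Fin 3)), (z i).submodule : Submodule k (Fin m → k)) =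
        (z 0).submodule ⊔ ((z 1).submodule ⊔ (z 2).submodule) := by
      rw [Finset.iSup_insert, Finset.iSup_insert, Finset.iSup_singleton]
    simp only [mem_setOf_eq, mem_iUnion, mem_inter_iff, exists_eq_left']
    rw [Cls.rk, Cls.rk, h1, h2, ← sup_assoc]
    constructor
    · intro h
      rw [sup_eq_left.2 h]
    · intro h
      have := Submodule.eq_of_le_of_finrank_eq (le_sup_left :
        (z 0).submodule ⊔ (z 1).submodule ≤ (z 0).submodule ⊔ (z 1).submodule ⊔ (z 2).submodule)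
        h.symm
      rw [this]
      exact le_sup_right
  rw [e]
  exact MeasurableSet.iUnion fun r => (H416.measurableSet_rk _ _).inter (H416.measurableSet_rk _ _)

end sub

/-! ### The patterns -/

section ae

variable {n n' : Type} [Fintype n] [DecidableEq n] [Fintype n'] [DecidableEq n']
  {kS k : Type} [NontriviallyNormedField kS] [NontriviallyNormedField k] [ProperSpace k]
  {σS : kS →+* kS} {εS : kS} {JS : Matrix n n kS} {σ : k →+* k} {ε : k} {J : Matrix n' n' k}
  [Fact (Continuous σ)] [MeasurableSpace (SGr σ J 1)] [BorelSpace (SGr σ J 1)] {K : Type}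
  [NormedAddCommGroup K] [InnerProductSpace ℂ K] [CompleteSpace K]

/-- The perpendicularity of pairs of points is exact. -/
def Exa (E : SGr σS JS 1 → (C(SGr σ J 1, ℂ) →⋆ₐ[ℂ] (K →L[ℂ] K))) : Prop :=
  ∀ (a b : SGr σS JS 1) (Ψ : C(Fin 2 → SGr σ J 1, ℂ) →⋆ₐ[ℂ] (K →L[ℂ] K)),
    (∀ i f, Ψ (co i f) = E (![a, b] i) f) → ∀ ξ, ∀ᵐ y ∂(ms Ψ ξ), (Col (y 0) (y 1) ↔ Col a b)

variable {E : SGr σS JS 1 → (C(SGr σ J 1, ℂ) →⋆ₐ[ℂ] (K →L[ℂ] K))}

theorem Exa.all (hE : Exa E) (com : ∀ a b f g, Commute (E a f) (E b g)) {κ : Type} [Fintype κ]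
    (a : κ → SGr σS JS 1) {Ψ : C(κ → SGr σ J 1, ℂ) →⋆ₐ[ℂ] (K →L[ℂ] K)}
    (hΨ : Jf (fun i => E (a i)) Ψ) (ξ : K) :
    ∀ᵐ y ∂(ms Ψ ξ), ∀ i j, (Col (y i) (y j) ↔ Col (a i) (a j)) := by
  refine ae_all_iff.2 fun i => ae_all_iff.2 fun j => ?_
  obtain ⟨Θ, hΘ⟩ := exists_joint (fun t : Fin 2 => E (![a i, a j] t)) fun s t f g => com _ _ f g
  have h3 : Jf (fun t : Fin 2 => E (![a i, a j] t)) Θ := hΘ
  exact hΨ.pull h3 ![i, j] (fun t f => by fin_cases t <;> rfl)
    (p := fun y => Col (y 0) (y 1) ↔ Col (a i) (a j)) ξ (hE _ _ Θ hΘ ξ)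

/-- different points have different values -/
theorem Exa.dst (hF : Fm σS εS JS) (hE : Exa E) (com : ∀ a b f g, Commute (E a f) (E b g))
    {a b : SGr σS JS 1} (hab : a ≠ b) {Ψ : C(Fin 2 → SGr σ J 1, ℂ) →⋆ₐ[ℂ] (K →L[ℂ] K)}
    (hΨ : ∀ i f, Ψ (co i f) = E (![a, b] i) f) (ξ : K) : ∀ᵐ y ∂(ms Ψ ξ), y 0 ≠ y 1 := by
  obtain ⟨d, hd1, hd2⟩ := lin_dst hF hab
  obtain ⟨Θ, hΘ⟩ := exists_joint (fun t : Fin 3 => E (![a, b, d] t)) fun s t f g => com _ _ f g
  have h3 : Jf (fun t : Fin 3 => E (![a, b, d] t)) Θ := hΘ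
  have h2 : Jf (fun t : Fin 2 => E (![a, b] t)) Ψ := hΨ
  refine h3.push h2 ![0, 1] (fun t f => by fin_cases t <;> rfl) (p := fun y => y 0 ≠ y 1) ?_ ξ ?_
  · have : IsOpen {y : Fin 2 → SGr σ J 1 | y 0 ≠ y 1} :=
      isOpen_ne_fun (continuous_apply 0) (continuous_apply 1)
    exact this.measurableSet
  · filter_upwards [hE.all com ![a, b, d] h3 ξ] with y hy he
    have g1 : Col (y 2) (y 0) := (hy 2 0).2 hd1
    have he' : y 0 = y 1 := he
    rw [he'] at g1
    exact hd2 ((hy 2 1).1 g1)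

/-- three points of a line have collinear values -/
theorem Exa.col {r : ℕ} (hF : Fo σS εS JS) (hr : WI σS JS r) (hF' : Fm σ ε J)
    (hr' : ∀ Y, Sing σ J Y → finrank k Y ≤ r) {N : ℕ} (e : n' ≃ Fin (N + 1)) (hE : Exa E)
    (com : ∀ a b f g, Commute (E a f) (E b g))
    {a b c : SGr σS JS 1} (hab : a ≠ b) (hc : Col a b) (hl : c.S ≤ a.S ⊔ b.S)
    {Ψ : C(Fin 3 → SGr σ J 1, ℂ) →⋆ₐ[ℂ] (K →L[ℂ] K)}
    (hΨ : ∀ i f, Ψ (co i f) = E (![a, b, c] i) f) (ξ : K) :
    ∀ᵐ y ∂(ms Ψ ξ), (y 2).S ≤ (y 0).S ⊔ (y 1).S := by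
  classical
  obtain ⟨x, x0, xx, rfl⟩ := exists_ptv a
  obtain ⟨y, y0, yy, rfl⟩ := exists_ptv b
  obtain ⟨u, u0, uu, rfl⟩ := exists_ptv c
  have hI : IsoP σS JS x y := by
    refine ⟨xx, yy, (col_ptv x0 xx y0 yy).1 hc, ?_⟩
    rw [LinearIndependent.pair_iff]
    intro s t hst
    by_cases hs : s = 0
    · subst hs
      rw [zero_smul, zero_add] at hst
      exact ⟨rfl, (smul_eq_zero.1 hst).resolve_right y0⟩
    · refine absurd ((H370.Fo.ptv_eq x0 xx y0 yy).2 ?_) hab
      rw [Submodule.mem_span_singleton]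
      refine ⟨-(s⁻¹ * t), ?_⟩
      have h1 : s⁻¹ • (s • x + t • y) = 0 := by rw [hst, smul_zero]
      rw [smul_add, smul_smul, inv_mul_cancel₀ hs, one_smul, smul_smul] at h1
      rw [neg_smul]
      exact (eq_neg_of_add_eq_zero_left h1).symm
  obtain ⟨κ, iκ, hκ, v, w, i₀, i₁, hv0, hv1, hi01, hvv, hww, hvw⟩ := lin_src hF hr hI
  -- `u` is a combination of `x` and `y`
  have hu : ∃ α β : kS, α • x + β • y = u := by
    have h1 : u ∈ (ptv x x0 xx).S ⊔ (ptv y y0 yy).S :=
      hl (Submodule.mem_span_singleton_self u)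
    rw [ptv_S, ptv_S, Submodule.mem_sup] at h1
    obtain ⟨p, hp, q, hq, hpq⟩ := h1
    obtain ⟨α, rfl⟩ := Submodule.mem_span_singleton.1 hp
    obtain ⟨β, rfl⟩ := Submodule.mem_span_singleton.1 hq
    exact ⟨α, β, hpq⟩
  obtain ⟨α, β, hu⟩ := hu
  have hv00 : ∀ i, v i ≠ 0 := fun i h0 => (hvw i i).not.2 (by simp) (by
    rw [h0, hf_zero_left])
  have hw00 : ∀ i, w i ≠ 0 := fun i h0 => (hvw i i).not.2 (by simp) (by
    rw [h0, hf_zero_right])
  -- the enlarged family
  let A : Fin 3 ⊕ (κ ⊕ κ) → SGr σS JS 1 := Sum.elim ![ptv x x0 xx, ptv y y0 yy, ptv u u0 uu]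
    (Sum.elim (fun i => ptv (v i) (hv00 i) (hvv i i)) fun i => ptv (w i) (hw00 i) (hww i))
  obtain ⟨Θ, hΘ⟩ := exists_joint (fun t => E (A t)) fun s t f g => com _ _ f g
  have h3 : Jf (fun t => E (A t)) Θ := hΘ
  have h2 : Jf (fun t : Fin 3 => E (![ptv x x0 xx, ptv y y0 yy, ptv u u0 uu] t)) Ψ := hΨ
  refine h3.push h2 (fun t => .inl t) (fun t f => rfl)
    (p := fun y => (y 2).S ≤ (y 0).S ⊔ (y 1).S) ?_ ξ ?_
  · have : {y : Fin 3 → SGr σ J 1 | (y 2).S ≤ (y 0).S ⊔ (y 1).S} =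
        (ptPi e σ J (Fin 3)) ⁻¹' {z | (z 2).submodule ≤ (z 0).submodule ⊔ (z 1).submodule} := by
      ext z
      exact (pt_le e).symm
    rw [this]
    exact (ptPi e σ J (Fin 3)).continuous.measurable meas_col
  · filter_upwards [hE.all com A h3 ξ] with z hz
    -- vectors
    choose U hU0 hUU hzU using fun s => exists_ptv (z s)
    have hcol : ∀ s t, hf σ J (U s) (U t) = 0 ↔ Col (A s) (A t) := by
      intro s t
      rw [← hz s t, hzU s, hzU t, col_ptv]
    -- the labels of the basis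
    let q : κ → Fin 3 ⊕ (κ ⊕ κ) := fun i =>
      if i = i₀ then .inl 0 else if i = i₁ then .inl 1 else .inr (.inl i)
    have hq : ∀ i, A (q i) = ptv (v i) (hv00 i) (hvv i i) := by
      intro i
      change A (if i = i₀ then _ else _) = _
      by_cases h0 : i = i₀
      · subst h0
        rw [if_pos rfl]
        refine SGr.ext ?_
        change Submodule.span kS {x} = Submodule.span kS {v i}
        rw [hv0]
      · rw [if_neg h0]
        by_cases h1 : i = i₁
        · subst h1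
          rw [if_pos rfl]
          refine SGr.ext ?_
          change Submodule.span kS {y} = Submodule.span kS {v i}
          rw [hv1]
        · rw [if_neg h1]
          rfl
    have hW : ∀ j, A (.inr (.inr j)) = ptv (w j) (hw00 j) (hww j) := fun j => rfl
    have hu2 : A (.inl 2) = ptv u u0 uu := rfl
    have key := lin_tgt (U := fun i => U (q i)) (W := fun j => U (.inr (.inr j)))
      (u := U (.inl 2)) hF' hr' hκ (fun i j => by rw [hcol, hq, hq, col_ptv, hvv])
      (fun i j => by rw [hcol, hq, hW, col_ptv, hvw]) (hUU _)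
      (fun i => by
        rw [hcol, hq, hu2, col_ptv, ← hu, hf_add_right, hf_smul_right, hf_smul_right, ← hv0,
          ← hv1, hvv, hvv, mul_zero, mul_zero, add_zero]) (i₀ := i₀) (i₁ := i₁)
      (fun j h0 h1 => by
        rw [hcol, hW, hu2, col_ptv, ← hu, hf_add_left, hf_smul_left, hf_smul_left, ← hv0, ← hv1,
          (hvw _ _).2 (Ne.symm h0), (hvw _ _).2 (Ne.symm h1), mul_zero, mul_zero, add_zero])
    have q0 : q i₀ = .inl 0 := if_pos rfl
    have q1 : q i₁ = .inl 1 := by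
      change (if i₁ = i₀ then _ else _) = _
      rw [if_neg (Ne.symm hi01), if_pos rfl]
    rw [q0, q1] at key
    rw [hzU (.inl 2), hzU (.inl 0), hzU (.inl 1), ptv_S, ptv_S, ptv_S,
      Submodule.span_singleton_le_iff_mem]
    exact key

end ae

end Vale.Agent.P092.H375.P3
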