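import Vale.Agent.P092.H375.ClsF

/-!
P092 (helper375), [P3-TAU]: deterministic algebra of points on a line of `ℙ k (Fin n → k)`.
-/

set_option linter.all false

namespace Vale.Agent.P092.H375.P3

open Vale.Agent.P092.H820 Vale.Agent.P092.H375.Cls
open TopologicalSpace Set Matrix Module
open scoped LinearAlgebra.Projectivization Matrix

variable {k : Type} [NontriviallyNormedField k] {n : ℕ}

/-- `v` represents `z` -/
def Pv (z : ℙ k (Fin n → k)) (v : Fin n → k) : Prop := ∃ h : v ≠ 0, z = pj k (Fin n) ⟨v, h⟩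

theorem exists_pv (z : ℙ k (Fin n → k)) : ∃ v, Pv z v := by
  obtain ⟨v, hv⟩ := pj_surj z
  exact ⟨v.1, v.2, hv.symm⟩

theorem Pv.smul {z : ℙ k (Fin n → k)} {v : Fin n → k} (h : Pv z v) {c : k} (hc : c ≠ 0) :
    Pv z (c • v) := by
  obtain ⟨h1, h2⟩ := h
  refine ⟨smul_ne_zero hc h1, ?_⟩
  rw [h2]
  exact (pj_smul_eq _ _ (c := c) rfl).symm

theorem Pv.of_smul {z : ℙ k (Fin n → k)} {v w : Fin n → k} (h : Pv z v) {c : k} (hc : c ≠ 0)
    (e : v = c • w) : Pv z w := by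
  have h1 := h.smul (inv_ne_zero hc)
  rw [e, smul_smul, inv_mul_cancel₀ hc, one_smul] at h1
  exact h1

theorem Pv.eq {z : ℙ k (Fin n → k)} {v w : Fin n → k} (h : Pv z v) (h' : Pv z w) :
    ∃ c : k, c ≠ 0 ∧ w = c • v := by
  obtain ⟨h1, h2⟩ := h
  obtain ⟨h3, h4⟩ := h'
  obtain ⟨c, hc⟩ := (pj_eq _ _).1 (h4.symm.trans h2)
  exact ⟨c, c.ne_zero, hc.symm⟩

theorem Pv.inj {z z' : ℙ k (Fin n → k)} {v : Fin n → k} (h : Pv z v) (h' : Pv z' v) : z = z' := by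
  obtain ⟨h1, h2⟩ := h
  obtain ⟨h3, h4⟩ := h'
  rw [h2, h4]

theorem Pv.sub {z : ℙ k (Fin n → k)} {v : Fin n → k} (h : Pv z v) :
    z.submodule = Submodule.span k {v} := by
  obtain ⟨h1, h2⟩ := h
  rw [h2]
  exact Projectivization.submodule_mk _ h1

theorem rl_iff {z : Fin 4 → ℙ k (Fin n → k)} {t : k} : Rl z t ↔ ∃ v0 v1 : Fin n → k,
    LinearIndependent k ![v0, v1] ∧ Pv (z 0) v0 ∧ Pv (z 1) v1 ∧ Pv (z 2) (v0 + v1) ∧
      Pv (z 3) (t • v0 + v1) := by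
  constructor
  · rintro ⟨v0, v1, h0, h1, h2, h3, h4, z0, z1, z2, z3⟩
    exact ⟨v0, v1, (mi_zero_iff _ _).1 h4, ⟨h0, z0⟩, ⟨h1, z1⟩, ⟨h2, z2⟩, ⟨h3, z3⟩⟩
  · rintro ⟨v0, v1, h4, ⟨h0, z0⟩, ⟨h1, z1⟩, ⟨h2, z2⟩, ⟨h3, z3⟩⟩
    exact ⟨v0, v1, h0, h1, h2, h3, (mi_zero_iff _ _).2 h4, z0, z1, z2, z3⟩

theorem li_zero {v0 v1 : Fin n → k} (h : LinearIndependent k ![v0, v1]) {a b c d : k}
    (e : a • v0 + b • v1 = c • v0 + d • v1) : a = c ∧ b = d := by
  rw [LinearIndependent.pair_iff] at h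
  have := h (a - c) (b - d) (by
    rw [sub_smul, sub_smul]
    have : a • v0 - c • v0 + (b • v1 - d • v1) = (a • v0 + b • v1) - (c • v0 + d • v1) := by abel
    rw [this, e, sub_self])
  exact ⟨sub_eq_zero.1 this.1, sub_eq_zero.1 this.2⟩

theorem li_smul {v0 v1 : Fin n → k} (h : LinearIndependent k ![v0, v1]) {a b : k} (ha : a ≠ 0)
    (hb : b ≠ 0) : LinearIndependent k ![a • v0, b • v1] := by
  rw [LinearIndependent.pair_iff] at h ⊢
  intro s t e
  rw [smul_smul, smul_smul] at e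
  obtain ⟨h1, h2⟩ := h _ _ e
  exact ⟨(mul_eq_zero.1 h1).resolve_right ha, (mul_eq_zero.1 h2).resolve_right hb⟩

theorem li_swap {v0 v1 : Fin n → k} (h : LinearIndependent k ![v0, v1]) :
    LinearIndependent k ![v1, v0] := by
  rw [LinearIndependent.pair_iff] at h ⊢
  intro s t e
  obtain ⟨h1, h2⟩ := h t s (by rw [add_comm]; exact e)
  exact ⟨h2, h1⟩

theorem li_add {v0 v1 : Fin n → k} (h : LinearIndependent k ![v0, v1]) (a : k) :
    LinearIndependent k ![v0, a • v0 + v1] := by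
  rw [LinearIndependent.pair_iff] at h ⊢
  intro s t e
  obtain ⟨h1, h2⟩ := h (s + t * a) t (by
    rw [← e, add_smul, smul_add, mul_smul]
    abel)
  rw [h2, zero_mul, add_zero] at h1
  exact ⟨h1, h2⟩

/-- in a fixed frame the fourth point is determined by the cross ratio -/
theorem rl_frame {z0 z1 z2 z' : ℙ k (Fin n → k)} {v0 v1 : Fin n → k} {t : k}
    (hI : LinearIndependent k ![v0, v1]) (h0 : Pv z0 v0) (h1 : Pv z1 v1) (h2 : Pv z2 (v0 + v1))
    (h : Rl ![z0, z1, z2, z'] t) : Pv z' (t • v0 + v1) := by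
  obtain ⟨w0, w1, hI', g0, g1, g2, g3⟩ := rl_iff.1 h
  change Pv z0 w0 at g0
  change Pv z1 w1 at g1
  change Pv z2 (w0 + w1) at g2
  change Pv z' (t • w0 + w1) at g3
  obtain ⟨a, ha, ea⟩ := h0.eq g0
  obtain ⟨b, hb, eb⟩ := h1.eq g1
  obtain ⟨c, hc, ec⟩ := h2.eq g2
  rw [ea, eb, smul_add] at ec
  obtain ⟨e1, e2⟩ := li_zero hI ec
  rw [ea, eb, e1, e2] at g3
  refine g3.of_smul hc ?_
  rw [smul_add, smul_comm]

/-- the cross ratio in a frame -/
theorem rl_mk {z0 z1 z2 z' : ℙ k (Fin n → k)} {v0 v1 : Fin n → k} {t : k}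
    (hI : LinearIndependent k ![v0, v1]) (h0 : Pv z0 v0) (h1 : Pv z1 v1) (h2 : Pv z2 (v0 + v1))
    (h3 : Pv z' (t • v0 + v1)) : Rl ![z0, z1, z2, z'] t :=
  rl_iff.2 ⟨v0, v1, hI, h0, h1, h2, h3⟩

theorem pv_uniq {z : ℙ k (Fin n → k)} {v0 v1 : Fin n → k} {t t' : k}
    (hI : LinearIndependent k ![v0, v1]) (h : Pv z (t • v0 + v1)) (h' : Pv z (t' • v0 + v1)) :
    t = t' := by
  obtain ⟨c, hc, e⟩ := h.eq h'
  have e2 : t' • v0 + (1 : k) • v1 = (c * t) • v0 + c • v1 := by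
    rw [one_smul, e, smul_add, mul_smul]
  obtain ⟨e3, e4⟩ := li_zero hI e2
  rw [← e4, one_mul] at e3
  exact e3.symm

/-- translation of the second point -/
theorem alg_un {z0 z1 z2 z3 z4 z5 : ℙ k (Fin n → k)} {ta t1 ts T : k}
    (h3 : Rl ![z0, z1, z2, z3] ta) (h4 : Rl ![z0, z1, z2, z4] t1) (h5 : Rl ![z0, z1, z2, z5] ts)
    (hT : Rl ![z0, z3, z4, z5] T) (hne : t1 ≠ ta) : ts - ta = T * (t1 - ta) := by
  obtain ⟨v0, v1, hI, g0, g1, g2, g3⟩ := rl_iff.1 h3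
  change Pv z0 v0 at g0
  change Pv z1 v1 at g1
  change Pv z2 (v0 + v1) at g2
  change Pv z3 (ta • v0 + v1) at g3
  have g4 := rl_frame hI g0 g1 g2 h4
  have g5 := rl_frame hI g0 g1 g2 h5
  have hd : t1 - ta ≠ 0 := sub_ne_zero.2 hne
  have hI' : LinearIndependent k ![(t1 - ta) • v0, ta • v0 + v1] := by
    have := li_smul (li_add hI ta) hd one_ne_zero
    rwa [one_smul] at this
  have g4' : Pv z4 ((t1 - ta) • v0 + (ta • v0 + v1)) := by
    have e : (t1 - ta) • v0 + (ta • v0 + v1) = t1 • v0 + v1 := by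
      rw [sub_smul]; abel
    rw [e]; exact g4
  have g6 := rl_frame hI' (g0.smul hd) g3 g4' hT
  have e : T • (t1 - ta) • v0 + (ta • v0 + v1) = (T * (t1 - ta) + ta) • v0 + v1 := by
    rw [add_smul, mul_smul]; abel
  rw [e] at g6
  have := pv_uniq hI g5 g6
  rw [this]; ring

/-- scaling of the first point -/
theorem alg_dg {z0 z1 z2 z3 z4 : ℙ k (Fin n → k)} {tu ts T : k}
    (h3 : Rl ![z0, z1, z2, z3] tu) (h4 : Rl ![z0, z1, z2, z4] ts)
    (hT : Rl ![z0, z1, z3, z4] T) (hne : tu ≠ 0) : ts = tu * T := by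
  obtain ⟨v0, v1, hI, g0, g1, g2, g3⟩ := rl_iff.1 h3
  change Pv z0 v0 at g0
  change Pv z1 v1 at g1
  change Pv z2 (v0 + v1) at g2
  change Pv z3 (tu • v0 + v1) at g3
  have g4 := rl_frame hI g0 g1 g2 h4
  have hI' : LinearIndependent k ![tu • v0, v1] := by
    have := li_smul hI hne one_ne_zero
    rwa [one_smul] at this
  have g6 := rl_frame hI' (g0.smul hne) g1 g3 hT
  rw [smul_smul] at g6
  have := pv_uniq hI g4 g6
  rw [this]; ring

/-- the converse -/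
theorem alg_sc {z0 z1 z2 z3 z4 : ℙ k (Fin n → k)} {tu T : k}
    (h3 : Rl ![z0, z1, z2, z3] tu) (h4 : Rl ![z0, z1, z2, z4] (tu * T)) (hne : tu ≠ 0) :
    Rl ![z0, z1, z3, z4] T := by
  obtain ⟨v0, v1, hI, g0, g1, g2, g3⟩ := rl_iff.1 h3
  change Pv z0 v0 at g0
  change Pv z1 v1 at g1
  change Pv z2 (v0 + v1) at g2
  change Pv z3 (tu • v0 + v1) at g3
  have g4 := rl_frame hI g0 g1 g2 h4
  have hI' : LinearIndependent k ![tu • v0, v1] := by
    have := li_smul hI hne one_ne_zero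
    rwa [one_smul] at this
  refine rl_mk hI' (g0.smul hne) g1 g3 ?_
  rw [smul_smul, mul_comm T]
  exact g4

/-- exchange of the two points -/
theorem alg_sw {z0 z1 z2 z3 z4 : ℙ k (Fin n → k)} {tm ts T : k}
    (h3 : Rl ![z0, z1, z2, z3] tm) (h4 : Rl ![z0, z1, z2, z4] ts)
    (hT : Rl ![z1, z0, z3, z4] T) (hne : tm ≠ 0) : tm = T * ts := by
  obtain ⟨v0, v1, hI, g0, g1, g2, g3⟩ := rl_iff.1 h3
  change Pv z0 v0 at g0
  change Pv z1 v1 at g1
  change Pv z2 (v0 + v1) at g2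
  change Pv z3 (tm • v0 + v1) at g3
  have g4 := rl_frame hI g0 g1 g2 h4
  have hI' : LinearIndependent k ![v1, tm • v0] := by
    have := li_smul (li_swap hI) one_ne_zero hne
    rwa [one_smul] at this
  have g3' : Pv z3 (v1 + tm • v0) := by rw [add_comm]; exact g3
  have g6 := rl_frame hI' g1 (g0.smul hne) g3' hT
  obtain ⟨c, hc, e⟩ := g4.eq g6
  have e2 : tm • v0 + T • v1 = (c * ts) • v0 + c • v1 := by
    rw [add_comm, e, smul_add, mul_smul]
  obtain ⟨e3, e4⟩ := li_zero hI e2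
  rw [e3, e4]

/-- four points of a line have a cross ratio -/
theorem cs_of {z : Fin 4 → ℙ k (Fin n → k)} (h01 : z 0 ≠ z 1) (h02 : z 2 ≠ z 0) (h12 : z 2 ≠ z 1)
    (h03 : z 3 ≠ z 0) (h2 : (z 2).submodule ≤ (z 0).submodule ⊔ (z 1).submodule)
    (h3 : (z 3).submodule ≤ (z 0).submodule ⊔ (z 1).submodule) : z ∈ CS (univ : Set k) := by
  obtain ⟨u0, g0⟩ := exists_pv (z 0)
  obtain ⟨u1, g1⟩ := exists_pv (z 1)
  obtain ⟨u2, g2⟩ := exists_pv (z 2)
  obtain ⟨u3, g3⟩ := exists_pv (z 3)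
  have hI : LinearIndependent k ![u0, u1] := by
    rw [LinearIndependent.pair_iff]
    intro s t e
    by_cases ht : t = 0
    · rw [ht, zero_smul, add_zero] at e
      exact ⟨(smul_eq_zero.1 e).resolve_right g0.1, ht⟩
    · exfalso
      have hs : s ≠ 0 := by
        rintro rfl
        rw [zero_smul, zero_add] at e
        exact (smul_eq_zero.1 e).elim ht g1.1
      apply h01
      refine Pv.inj (g0.smul hs) ?_
      have e2 : s • u0 = (-t) • u1 := by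
        rw [neg_smul]; exact eq_neg_of_add_eq_zero_left e
      rw [e2]
      exact g1.smul (neg_ne_zero.2 ht)
  rw [g0.sub, g1.sub, ← Submodule.span_union, Set.singleton_union] at h2 h3
  rw [g2.sub, Submodule.span_singleton_le_iff_mem, Submodule.mem_span_pair] at h2
  rw [g3.sub, Submodule.span_singleton_le_iff_mem, Submodule.mem_span_pair] at h3
  obtain ⟨a, b, e2⟩ := h2
  obtain ⟨c, d, e3⟩ := h3
  have ha : a ≠ 0 := by
    rintro rfl
    rw [zero_smul, zero_add] at e2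
    have hb : b ≠ 0 := by rintro rfl; rw [zero_smul] at e2; exact g2.1 e2.symm
    exact h12 (Pv.inj g2 (by rw [← e2]; exact g1.smul hb))
  have hb : b ≠ 0 := by
    rintro rfl
    rw [zero_smul, add_zero] at e2
    exact h02 (Pv.inj g2 (by rw [← e2]; exact g0.smul ha))
  have hd : d ≠ 0 := by
    rintro rfl
    rw [zero_smul, add_zero] at e3
    have hc : c ≠ 0 := by rintro rfl; rw [zero_smul] at e3; exact g3.1 e3.symm
    exact h03 (Pv.inj g3 (by rw [← e3]; exact g0.smul hc))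
  refine ⟨b * c / (a * d), trivial, rl_iff.2 ⟨a • u0, b • u1, li_smul hI ha hb, g0.smul ha,
    g1.smul hb, by rw [e2]; exact g2, ?_⟩⟩
  refine g3.of_smul (c := d / b) (div_ne_zero hd hb) ?_
  rw [← e3, smul_add, smul_smul, smul_smul, smul_smul]
  congr 1
  · congr 1; field_simp
  · congr 1; field_simp

theorem rl_zero {z : Fin 3 → ℙ k (Fin n → k)} (h01 : z 0 ≠ z 1) (h02 : z 2 ≠ z 0)
    (h12 : z 2 ≠ z 1) (h2 : (z 2).submodule ≤ (z 0).submodule ⊔ (z 1).submodule) :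
    Rl ![z 0, z 1, z 2, z 1] 0 := by
  obtain ⟨t, -, h⟩ := cs_of (z := ![z 0, z 1, z 2, z 1]) h01 h02 h12 h01.symm h2 (by
    change (z 1).submodule ≤ (z 0).submodule ⊔ (z 1).submodule
    exact le_sup_right)
  obtain ⟨v0, v1, hI, g0, g1, g2, g3⟩ := rl_iff.1 h
  change Pv (z 1) (t • v0 + v1) at g3
  change Pv (z 1) v1 at g1
  have : Pv (z 1) ((0 : k) • v0 + v1) := by rw [zero_smul, zero_add]; exact g1
  rw [← pv_uniq hI g3 this]
  exact h

end Vale.Agent.P092.H375.P3
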