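import Vale.Agent.P092.H375.P3.Fld
import Vale.Agent.P092.H375.P3.Ln
import Vale.Agent.P092.H375.X2.Inc

/-!
P092 (helper375), [P3-TAU]: a commuting leg over the points of a polar space (any family of points
and any family of lines): the cross ratios of the lines are one homomorphism of fields
`τ : kS →+* k`. Two fields, every characteristic.
-/

set_option linter.all false

namespace Vale.Agent.P092.H375.P3

open Vale.Agent.P092 (RC.PG)
open Vale.Agent.P092.H820 Vale.Agent.P092.H466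
open Vale.Agent.P092.H171 (co hom_uniq ms_restr exists_joint conj_eq comm_all pv_conj_eq)
open Vale.Agent.P092.H375.Cls Vale.Agent.P092.H375.X2
open TopologicalSpace Set MeasureTheory Matrix Module
open scoped LinearAlgebra.Projectivization Matrix InnerProductSpace

section pl

variable {kS k : Type} [NontriviallyNormedField kS] [NontriviallyNormedField k] [ProperSpace k]
  {n : ℕ} {P₀ S Γ K : Type} [Group S] [Group Γ] [NormedAddCommGroup K] [InnerProductSpace ℂ K]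
  [CompleteSpace K]

theorem ccs {k : Type} [NontriviallyNormedField k] {n : ℕ} :
    ContinuousConstSMul (GL (Fin n) k) (ℙ k (Fin n → k)) := ⟨fun g => by
  have hq : IsOpenQuotientMap (pj k (Fin n)) := pj_oq
  rw [← hq.continuous_comp_iff]
  have e : (fun x : ℙ k (Fin n → k) => g • x) ∘ pj k (Fin n) =
    fun v => pj k (Fin n) ⟨g • v.1, gsmul_ne g v.2⟩ := rfl
  rw [e]
  refine pj_continuous.comp (Continuous.subtype_mk ?_ _)
  change Continuous fun v : {v : Fin n → k // v ≠ 0} => g.1 *ᵥ v.1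
  fun_prop⟩

attribute [local instance] ccs

/-- translation of functions by `GL_n(k)` -/
noncomputable def trG (g : GL (Fin n) k) (f : C(ℙ k (Fin n → k), ℂ)) : C(ℙ k (Fin n → k), ℂ) :=
  ⟨fun x => f (g⁻¹ • x), f.continuous.comp (continuous_const_smul g⁻¹)⟩

/-- A commuting leg over the points `pt : P₀ → ℙ kS (kSⁿ)` and the lines `<x, y>`, `𝓛 x y`. -/
structure PL (pt : P₀ → ℙ kS (Fin n → kS)) (𝓛 : (Fin n → kS) → (Fin n → kS) → Prop)
    (x₀ y₀ : Fin n → kS) (ρ : S →* RC.PG kS n) (π : S →* (K →L[ℂ] K)) (lam : Γ →* (K →L[ℂ] K))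
    (W : Set (K →L[ℂ] K)) (q : Γ → GL (Fin n) k)
    (E : P₀ → (C(ℙ k (Fin n → k), ℂ) →⋆ₐ[ℂ] (K →L[ℂ] K))) : Prop where
  ptinj : Function.Injective pt
  com : ∀ a b f g, Commute (E a f) (E b g)
  cm : ∀ a f, ∀ w ∈ W, E a f * w = w * E a f
  cov : ∀ γ a f, lam γ * E a f * lam γ⁻¹ = E a (trG (q γ) f)
  /-- the points are permuted by `S` -/
  stab : ∀ g a, ∃ b, pt b = ρ g • pt a
  pcov : ∀ g a b, pt b = ρ g • pt a → ∀ f, π g * E a f * π g⁻¹ = E b f
  li : ∀ x y, 𝓛 x y → LinearIndependent kS ![x, y]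
  /-- all points of the lines are points -/
  onl : ∀ x y, 𝓛 x y → ∀ v, v ≠ 0 → v ∈ Submodule.span kS {x, y} → ∃ a, Pv (pt a) v
  /-- two different points of a line stay different -/
  dst : ∀ x y, 𝓛 x y → ∀ a b, a ≠ b → (pt a).submodule ≤ Submodule.span kS {x, y} →
    (pt b).submodule ≤ Submodule.span kS {x, y} →
    ∀ Φ : C(Fin 2 → ℙ k (Fin n → k), ℂ) →⋆ₐ[ℂ] (K →L[ℂ] K),
      (∀ i f, Φ (co i f) = E (![a, b] i) f) → ∀ ξ, ∀ᵐ z ∂(ms Φ ξ), z 0 ≠ z 1
  /-- three different points of a line stay collinear -/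
  col : ∀ x y, 𝓛 x y → ∀ a b c, a ≠ b → a ≠ c → b ≠ c →
    (pt a).submodule ≤ Submodule.span kS {x, y} → (pt b).submodule ≤ Submodule.span kS {x, y} →
    (pt c).submodule ≤ Submodule.span kS {x, y} →
    ∀ Φ : C(Fin 3 → ℙ k (Fin n → k), ℂ) →⋆ₐ[ℂ] (K →L[ℂ] K),
      (∀ i f, Φ (co i f) = E (![a, b, c] i) f) → ∀ ξ, ∀ᵐ z ∂(ms Φ ξ),
        (z 2).submodule ≤ (z 0).submodule ⊔ (z 1).submodule
  /-- ergodicity of the pointwise stabiliser of a line -/
  erg : ∀ x y, 𝓛 x y → ∀ T : K →L[ℂ] K, (∀ w ∈ W, T * w = w * T) →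
    (∀ γ, T * lam γ = lam γ * T) →
    (∀ g : S, (∀ a : ℙ kS (Fin n → kS), a.submodule ≤ Submodule.span kS {x, y} → ρ g • a = a) →
      T * π g = π g * T) → ∃ c : ℂ, T = c • (1 : K →L[ℂ] K)
  /-- transitivity on the pairs of collinear points -/
  tr : ∀ x y, 𝓛 x y → ∃ (g : S) (M : GL (Fin n) kS) (lm mu : kS), ρ g = QuotientGroup.mk M ∧
    lm ≠ 0 ∧ mu ≠ 0 ∧ M • x = lm • x₀ ∧ M • y = mu • y₀
  base : 𝓛 x₀ y₀
  /-- `SL_2` acts on the line `<x₀, y₀>` -/
  sl : ∀ A : SpecialLinearGroup (Fin 2) kS, ∃ (g : S) (M : GL (Fin n) kS),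
    ρ g = QuotientGroup.mk M ∧ M • x₀ = A.1 0 0 • x₀ + A.1 1 0 • y₀ ∧
      M • y₀ = A.1 0 1 • x₀ + A.1 1 1 • y₀

variable {pt : P₀ → ℙ kS (Fin n → kS)} {𝓛 : (Fin n → kS) → (Fin n → kS) → Prop}
  {x₀ y₀ : Fin n → kS} {ρ : S →* RC.PG kS n} {π : S →* (K →L[ℂ] K)} {lam : Γ →* (K →L[ℂ] K)}
  {W : Set (K →L[ℂ] K)} {q : Γ → GL (Fin n) k}
  {E : P₀ → (C(ℙ k (Fin n → k), ℂ) →⋆ₐ[ℂ] (K →L[ℂ] K))}

/-- the quadruple `u` has the cross ratio `t` almost everywhere -/
def Cr (pt : P₀ → ℙ kS (Fin n → kS)) (E : P₀ → (C(ℙ k (Fin n → k), ℂ) →⋆ₐ[ℂ] (K →L[ℂ] K)))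
    (u : Fin 4 → Fin n → kS) (t : k) : Prop :=
  ∀ a : Fin 4 → P₀, (∀ i, Pv (pt (a i)) (u i)) →
    ∀ Φ : C(Fin 4 → ℙ k (Fin n → k), ℂ) →⋆ₐ[ℂ] (K →L[ℂ] K), Jf (fun i => E (a i)) Φ →
      ∀ ξ, ∀ᵐ z ∂(ms Φ ξ), Rl z t

theorem PL.joint (hL : PL pt 𝓛 x₀ y₀ ρ π lam W q E) {ι : Type} (a : ι → P₀) :
    ∃ Φ : C(ι → ℙ k (Fin n → k), ℂ) →⋆ₐ[ℂ] (K →L[ℂ] K), Jf (fun i => E (a i)) Φ :=
  exists_joint (fun i => E (a i)) fun i j f g => hL.com _ _ f g

/-- read off a quadruple in a larger family -/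
theorem Cr.pull {u : Fin 4 → Fin n → kS} {t : k} (h : Cr pt E u t) {ι : Type} [Fintype ι]
    (hL : PL pt 𝓛 x₀ y₀ ρ π lam W q E) {b : ι → P₀} {Φ : C(ι → ℙ k (Fin n → k), ℂ) →⋆ₐ[ℂ] (K →L[ℂ] K)}
    (hΦ : Jf (fun i => E (b i)) Φ) (r : Fin 4 → ι) (hr : ∀ i, Pv (pt (b (r i))) (u i)) (ξ : K) :
    ∀ᵐ z ∂(ms Φ ξ), Rl (fun i => z (r i)) t := by
  obtain ⟨Ψ, hΨ⟩ := hL.joint (fun i => b (r i))
  exact hΦ.pull hΨ r (fun i f => rfl) ξ (h _ hr Ψ hΨ ξ)

theorem Cr.scale {u u' : Fin 4 → Fin n → kS} {t : k} (h : Cr pt E u t)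
    (c : Fin 4 → kS) (hc : ∀ i, c i ≠ 0) (hu : ∀ i, u' i = c i • u i) : Cr pt E u' t := by
  intro a ha
  exact h a fun i => (ha i).of_smul (hc i) (hu i)

theorem pv_smul {M : GL (Fin n) kS} {p : ℙ kS (Fin n → kS)} {v : Fin n → kS} (h : Pv p v) :
    Pv ((QuotientGroup.mk M : RC.PG kS n) • p) (M • v) := by
  obtain ⟨h1, h2⟩ := h
  refine ⟨gsmul_ne M h1, ?_⟩
  rw [h2]
  rfl

theorem measurableSet_rl [MeasurableSpace k] [BorelSpace k] (t : k) :
    MeasurableSet {z : Fin 4 → ℙ k (Fin n → k) | Rl z t} := by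
  have e : {z : Fin 4 → ℙ k (Fin n → k) | Rl z t} = CS {t} := by
    ext z
    constructor
    · intro h; exact ⟨t, rfl, h⟩
    · rintro ⟨t', ht', h⟩
      rw [mem_singleton_iff] at ht'
      rw [mem_setOf_eq, ← ht']
      exact h
  rw [e]
  exact measurableSet_cs (measurableSet_singleton t)

/-- the group of the source preserves the cross ratios -/
theorem Cr.smul (hL : PL pt 𝓛 x₀ y₀ ρ π lam W q E) {u : Fin 4 → Fin n → kS} {t : k}
    (h : Cr pt E u t) {g : S} {M : GL (Fin n) kS} (hg : ρ g = QuotientGroup.mk M) :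
    Cr pt E (fun i => M • u i) t := by
  letI : MeasurableSpace k := borel k
  haveI : BorelSpace k := ⟨rfl⟩
  intro a ha Φ hΦ
  choose a' ha' using fun i => hL.stab g⁻¹ (a i)
  have ha2 : ∀ i, pt (a i) = ρ g • pt (a' i) := fun i => by
    rw [ha', ← mul_smul, map_inv, mul_inv_cancel, one_smul]
  have ha3 : ∀ i, Pv (pt (a' i)) (u i) := by
    intro i
    have e1 : ρ g⁻¹ = QuotientGroup.mk M⁻¹ := by rw [map_inv, hg]; rfl
    rw [ha', e1]
    have := pv_smul (M := M⁻¹) (ha i)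
    rwa [inv_smul_smul] at this
  obtain ⟨Ψ, hΨ⟩ := hL.joint a'
  have u1 : π g * π g⁻¹ = 1 := by rw [← map_mul, mul_inv_cancel, map_one]
  have u2 : π g⁻¹ * π g = 1 := by rw [← map_mul, inv_mul_cancel, map_one]
  have h1 : ∀ F, π g * Ψ F * π g⁻¹ = Φ F := by
    intro F
    exact conj_eq Ψ Φ (ContinuousMap.id _) u1 u2 (fun i f => by
      rw [hΨ i f]
      change π g * E (a' i) f * π g⁻¹ = Φ (co i f)
      rw [hΦ i f, hL.pcov g _ _ (ha2 i)]) F
  have hm := measurableSet_rl (k := k) (n := n) t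
  have h2 := (pv_one_ae Ψ hm).2 (h a' ha3 Ψ hΨ)
  refine (pv_one_ae Φ hm).1 ?_
  rw [← pv_conj_eq u1 u2 h1, h2, mul_one, u1]

theorem sub_le {a : P₀} {v x y : Fin n → kS} (h : Pv (pt a) v)
    (hv : v ∈ Submodule.span kS {x, y}) : (pt a).submodule ≤ Submodule.span kS {x, y} := by
  rw [h.sub, Submodule.span_singleton_le_iff_mem]
  exact hv

theorem mem_sp (x y : Fin n → kS) (c d : kS) : c • x + d • y ∈ Submodule.span kS {x, y} :=
  Submodule.mem_span_pair.2 ⟨c, d, rfl⟩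

theorem ne_of {x y : Fin n → kS} (hI : LinearIndependent kS ![x, y]) {c d : kS}
    (h : c ≠ 0 ∨ d ≠ 0) : c • x + d • y ≠ 0 := by
  intro e
  rw [LinearIndependent.pair_iff] at hI
  obtain ⟨h1, h2⟩ := hI c d e
  rcases h with h | h
  · exact h h1
  · exact h h2

/-- the points of a line -/
theorem PL.pts (hL : PL pt 𝓛 x₀ y₀ ρ π lam W q E) {x y : Fin n → kS} (h : 𝓛 x y) {ι : Type}
    (u : ι → Fin n → kS) (hu : ∀ i, u i ≠ 0) (hm : ∀ i, u i ∈ Submodule.span kS {x, y}) :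
    ∃ a : ι → P₀, ∀ i, Pv (pt (a i)) (u i) := by
  choose a ha using fun i => hL.onl x y h (u i) (hu i) (hm i)
  exact ⟨a, ha⟩

theorem pt_ne {a b : P₀} {v w : Fin n → kS} (ha : Pv (pt a) v) (hb : Pv (pt b) w)
    (h : LinearIndependent kS ![v, w]) : a ≠ b := by
  rintro rfl
  obtain ⟨c, hc, e⟩ := ha.eq hb
  rw [LinearIndependent.pair_iff] at h
  have := h c (-1) (by rw [e]; simp)
  exact one_ne_zero (neg_eq_zero.1 this.2)

/-- almost everywhere facts about the points of a line, in a larger family -/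
theorem PL.ae_ne (hL : PL pt 𝓛 x₀ y₀ ρ π lam W q E) {x y : Fin n → kS} (h : 𝓛 x y) {ι : Type}
    [Fintype ι] {b : ι → P₀} {Φ : C(ι → ℙ k (Fin n → k), ℂ) →⋆ₐ[ℂ] (K →L[ℂ] K)}
    (hΦ : Jf (fun i => E (b i)) Φ) {i j : ι} (hij : b i ≠ b j)
    (hi : (pt (b i)).submodule ≤ Submodule.span kS {x, y})
    (hj : (pt (b j)).submodule ≤ Submodule.span kS {x, y}) (ξ : K) :
    ∀ᵐ z ∂(ms Φ ξ), z i ≠ z j := by
  obtain ⟨Ψ, hΨ⟩ := hL.joint ![b i, b j]
  exact hΦ.pull hΨ ![i, j] (fun l f => by fin_cases l <;> rfl) (p := fun z => z 0 ≠ z 1) ξ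
    (hL.dst x y h _ _ hij hi hj Ψ hΨ ξ)

theorem PL.ae_col (hL : PL pt 𝓛 x₀ y₀ ρ π lam W q E) {x y : Fin n → kS} (h : 𝓛 x y) {ι : Type}
    [Fintype ι] {b : ι → P₀} {Φ : C(ι → ℙ k (Fin n → k), ℂ) →⋆ₐ[ℂ] (K →L[ℂ] K)}
    (hΦ : Jf (fun i => E (b i)) Φ) {i j l : ι} (hij : b i ≠ b j) (hil : b i ≠ b l)
    (hjl : b j ≠ b l) (hi : (pt (b i)).submodule ≤ Submodule.span kS {x, y})
    (hj : (pt (b j)).submodule ≤ Submodule.span kS {x, y})
    (hl : (pt (b l)).submodule ≤ Submodule.span kS {x, y}) (ξ : K) :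
    ∀ᵐ z ∂(ms Φ ξ), (z l).submodule ≤ (z i).submodule ⊔ (z j).submodule := by
  obtain ⟨Ψ, hΨ⟩ := hL.joint ![b i, b j, b l]
  exact hΦ.pull hΨ ![i, j, l] (fun m f => by fin_cases m <;> rfl)
    (p := fun z => (z 2).submodule ≤ (z 0).submodule ⊔ (z 1).submodule) ξ
    (hL.col x y h _ _ _ hij hil hjl hi hj hl Ψ hΨ ξ)

/-- the quadruple of a line -/
def qv (x y : Fin n → kS) (s : kS) : Fin 4 → Fin n → kS := ![x, y, x + y, s • x + y]

theorem qv_mem (x y : Fin n → kS) (s : kS) (i : Fin 4) :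
    qv x y s i ∈ Submodule.span kS {x, y} := by
  fin_cases i
  · exact Submodule.subset_span (Or.inl rfl)
  · exact Submodule.subset_span (Or.inr rfl)
  · exact Submodule.add_mem _ (Submodule.subset_span (Or.inl rfl))
      (Submodule.subset_span (Or.inr rfl))
  · exact Submodule.add_mem _ (Submodule.smul_mem _ _ (Submodule.subset_span (Or.inl rfl)))
      (Submodule.subset_span (Or.inr rfl))

/-- **the cross ratio of a line is a scalar** -/
theorem PL.cr_ex [Nontrivial K] (hL : PL pt 𝓛 x₀ y₀ ρ π lam W q E) {x y : Fin n → kS}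
    (h : 𝓛 x y) (s : kS) (hs : s ≠ 0) : ∃ t : k, Cr pt E (qv x y s) t := by
  letI : MeasurableSpace k := borel k
  haveI : BorelSpace k := ⟨rfl⟩
  have hI := hL.li x y h
  have hI' : ∀ c : kS, LinearIndependent kS ![x, c • x + y] := fun c => li_add hI c
  have hI1 : LinearIndependent kS ![x, x + y] := by have := hI' 1; rwa [one_smul] at this
  -- the points
  have hq : ∀ i, qv x y s i ≠ 0 := by
    intro i
    fin_cases i
    · exact hI.ne_zero 0
    · exact hI.ne_zero 1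
    · exact hI1.ne_zero 1
    · exact (hI' s).ne_zero 1
  obtain ⟨a, ha⟩ := hL.pts h (qv x y s) hq (qv_mem x y s)
  have hsub : ∀ i, (pt (a i)).submodule ≤ Submodule.span kS {x, y} :=
    fun i => sub_le (ha i) (qv_mem x y s i)
  have a0 : Pv (pt (a 0)) x := ha 0
  have a1 : Pv (pt (a 1)) y := ha 1
  have a2 : Pv (pt (a 2)) (x + y) := ha 2
  have a3 : Pv (pt (a 3)) (s • x + y) := ha 3
  have n01 : a 0 ≠ a 1 := pt_ne a0 a1 hI
  have n02 : a 0 ≠ a 2 := pt_ne a0 a2 hI1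
  have n03 : a 0 ≠ a 3 := pt_ne a0 a3 (hI' s)
  have n12 : a 1 ≠ a 2 := pt_ne a1 a2 (by
    have := li_add (li_swap hI) 1
    rw [one_smul, add_comm] at this
    exact this)
  have n13 : a 1 ≠ a 3 := by
    intro e
    obtain ⟨c, hc, e2⟩ := a1.eq (e ▸ a3)
    have e3 : s • x + (1 : kS) • y = (0 : kS) • x + c • y := by
      rw [one_smul, zero_smul, zero_add, e2]
    exact hs (li_zero hI e3).1
  obtain ⟨Φ, hΦ⟩ := hL.joint a
  have h1 : ∀ ξ, ∀ᵐ z ∂(ms Φ ξ), z ∈ CS (univ : Set k) := by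
    intro ξ
    filter_upwards [hL.ae_ne h hΦ n01 (hsub _) (hsub _) ξ, hL.ae_ne h hΦ n02.symm (hsub _) (hsub _) ξ,
      hL.ae_ne h hΦ n12.symm (hsub _) (hsub _) ξ, hL.ae_ne h hΦ n03.symm (hsub _) (hsub _) ξ,
      hL.ae_col h hΦ n01 n02 n12 (hsub _) (hsub _) (hsub _) ξ,
      hL.ae_col h hΦ n01 n03 n13 (hsub _) (hsub _) (hsub _) ξ] with z z1 z2 z3 z4 z5 z6
    exact cs_of z1 z2 z3 z4 z5 z6
  obtain ⟨t, ht⟩ := cs_const Φ h1 (by
    intro A hA
    -- commutation with `W`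
    have c1 : ∀ w ∈ W, pv Φ (CS A) * w = w * pv Φ (CS A) := by
      intro w hw
      refine (pv_commute Φ (T := w) (fun f => ?_) _).symm
      exact comm_all Φ (T := w) (fun i f => by
        rw [hΦ i f]; exact (hL.cm _ _ w hw).symm) f
    -- commutation with `lam`
    have c2 : ∀ γ, pv Φ (CS A) * lam γ = lam γ * pv Φ (CS A) := by
      intro γ
      have u1 : lam γ * lam γ⁻¹ = 1 := by rw [← map_mul, mul_inv_cancel, map_one]
      have u2 : lam γ⁻¹ * lam γ = 1 := by rw [← map_mul, inv_mul_cancel, map_one]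
      let g : (Fin 4 → ℙ k (Fin n → k)) ≃ₜ (Fin 4 → ℙ k (Fin n → k)) :=
        { toFun := fun z x => q γ • z x
          invFun := fun z x => (q γ)⁻¹ • z x
          left_inv := fun z => funext fun x => inv_smul_smul _ _
          right_inv := fun z => funext fun x => smul_inv_smul _ _
          continuous_toFun := by fun_prop
          continuous_invFun := by fun_prop }
      have h2 := pv_cov Φ u1 u2 g (fun f => conj_eq Φ Φ ⟨fun z i => (q γ)⁻¹ • z i, by fun_prop⟩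
        u1 u2 (fun i f => by
          rw [hΦ i f]
          change lam γ * E (a i) f * lam γ⁻¹ = _
          rw [hL.cov, ← hΦ i]
          rfl) f) (CS A)
      have h3 : g '' (CS A) = CS A := by
        ext z
        constructor
        · rintro ⟨z', hz', rfl⟩
          exact (cs_gsmul (q γ)).2 hz'
        · intro hz
          refine ⟨g.symm z, ?_, g.apply_symm_apply z⟩
          exact (cs_gsmul (q γ)⁻¹).2 hz
      rw [h3] at h2
      calc pv Φ (CS A) * lam γ = (lam γ * pv Φ (CS A) * lam γ⁻¹) * lam γ := by rw [h2]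
        _ = lam γ * pv Φ (CS A) * (lam γ⁻¹ * lam γ) := by simp only [mul_assoc]
        _ = lam γ * pv Φ (CS A) := by rw [u2, mul_one]
    -- commutation with the stabiliser of the line
    have c3 : ∀ g : S, (∀ b : ℙ kS (Fin n → kS), b.submodule ≤ Submodule.span kS {x, y} →
        ρ g • b = b) → pv Φ (CS A) * π g = π g * pv Φ (CS A) := by
      intro g hg
      have u1 : π g * π g⁻¹ = 1 := by rw [← map_mul, mul_inv_cancel, map_one]
      have u2 : π g⁻¹ * π g = 1 := by rw [← map_mul, inv_mul_cancel, map_one]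
      refine (pv_commute Φ (T := π g) (fun f => ?_) _).symm
      have h2 := conj_eq Φ Φ (ContinuousMap.id _) u1 u2 (fun i f => by
          rw [hΦ i f]
          change π g * E (a i) f * π g⁻¹ = _
          rw [hL.pcov g _ _ (hg _ (hsub i)).symm]
          exact (hΦ i f).symm) f
      change π g * Φ f * π g⁻¹ = Φ f at h2
      calc π g * Φ f = π g * Φ f * (π g⁻¹ * π g) := by rw [u2, mul_one]
        _ = (π g * Φ f * π g⁻¹) * π g := by simp only [mul_assoc]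
        _ = _ := by rw [h2]
    obtain ⟨c, hc⟩ := hL.erg x y h _ c1 c2 c3
    have hid := pv_idem Φ (CS A)
    rw [hc] at hid ⊢
    rw [smul_mul_smul_comm, mul_one] at hid
    have hcc : c * c = c := by
      have h1 : (1 : K →L[ℂ] K) ≠ 0 := one_ne_zero
      have h2 : (c * c - c) • (1 : K →L[ℂ] K) = 0 := by rw [sub_smul, hid, sub_self]
      rcases smul_eq_zero.1 h2 with h3 | h3
      · exact sub_eq_zero.1 h3
      · exact absurd h3 h1
    rcases eq_or_ne c 0 with rfl | hc0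
    · left; rw [zero_smul]
    · right
      have : c = 1 := mul_left_cancel₀ hc0 (by rw [hcc, mul_one])
      rw [this, one_smul])
  refine ⟨t, fun b hb Ψ hΨ ξ => ?_⟩
  have e1 : b = a := funext fun i => hL.ptinj ((hb i).inj (ha i))
  subst e1
  have : Ψ = Φ := hom_uniq fun i f => by rw [hΨ i f, hΦ i f]
  rw [this]
  exact ht ξ

/-- the degenerate quadruple -/
theorem PL.cr_zero (hL : PL pt 𝓛 x₀ y₀ ρ π lam W q E) {x y : Fin n → kS}
    (h : 𝓛 x y) : Cr pt E (qv x y 0) 0 := by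
  letI : MeasurableSpace k := borel k
  haveI : BorelSpace k := ⟨rfl⟩
  have hI := hL.li x y h
  intro a ha Ψ hΨ ξ
  have a0 : Pv (pt (a 0)) x := ha 0
  have a1 : Pv (pt (a 1)) y := ha 1
  have a2 : Pv (pt (a 2)) (x + y) := ha 2
  have a3 : Pv (pt (a 3)) ((0 : kS) • x + y) := ha 3
  rw [zero_smul, zero_add] at a3
  have e31 : a 3 = a 1 := hL.ptinj (a3.inj a1)
  have hsub : ∀ i, (pt (a i)).submodule ≤ Submodule.span kS {x, y} :=
    fun i => sub_le (ha i) (qv_mem x y 0 i)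
  have n01 : a 0 ≠ a 1 := pt_ne a0 a1 hI
  have n02 : a 0 ≠ a 2 := pt_ne a0 a2 (by have := li_add hI 1; rwa [one_smul] at this)
  have n12 : a 1 ≠ a 2 := pt_ne a1 a2 (by
    have := li_add (li_swap hI) 1
    rw [one_smul, add_comm] at this
    exact this)
  obtain ⟨Φ, hΦ⟩ := hL.joint ![a 0, a 1, a 2]
  refine hΦ.push hΨ ![0, 1, 2, 1] (fun i f => ?_) (measurableSet_rl 0) ξ ?_
  · fin_cases i
    · rfl
    · rfl
    · rfl
    · change E (a 3) f = E (a 1) f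
      rw [e31]
  · filter_upwards [hL.ae_ne h hΦ (i := 0) (j := 1) n01 (hsub 0) (hsub 1) ξ,
      hL.ae_ne h hΦ (i := 2) (j := 0) n02.symm (hsub 2) (hsub 0) ξ,
      hL.ae_ne h hΦ (i := 2) (j := 1) n12.symm (hsub 2) (hsub 1) ξ,
      hL.ae_col h hΦ (i := 0) (j := 1) (l := 2) n01 n02 n12 (hsub 0) (hsub 1) (hsub 2) ξ]
      with z z1 z2 z3 z4
    have := rl_zero z1 z2 z3 z4
    have e : (fun i : Fin 4 => z ((![0, 1, 2, 1] : Fin 4 → Fin 3) i)) =
        ![z 0, z 1, z 2, z 1] := by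
      funext i
      fin_cases i <;> rfl
    rw [e]
    exact this

end pl

end Vale.Agent.P092.H375.P3
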